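import Vale.Agent.P166.Wishart.Split

/-! Existence of the limit, and concentration. -/

open MeasureTheory ProbabilityTheory Filter Topology Set Matrix

namespace Vale.Agent.P166.Wishart

open Vale.Agent.P146 (PolyBd gauss)

variable {θ : ℝ}

theorem Gn_lipschitz (hθ : |θ| ≤ 1 / 64) {n : ℕ} (hn : 0 < n) (m m' : ℕ) :
    |Gn θ n m - Gn θ n m'| ≤ 128 * |θ| * |(m : ℝ) - m'| := by
  have : Nonempty (Fin n) := ⟨⟨0, hn⟩⟩
  exact G_lipschitz hθ (Fin n) m m'

theorem Gn_abs_le (hθ : |θ| ≤ 1 / 64) {n : ℕ} (hn : 0 < n) (m : ℕ) :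
    |Gn θ n m| ≤ 128 * |θ| * m := by
  have h := Gn_lipschitz (θ := θ) hθ hn m 0
  simpa [Gn, G_zero, abs_of_nonneg (Nat.cast_nonneg m : (0 : ℝ) ≤ m)] using h

theorem Gn_ge_near (hθ : |θ| ≤ 1 / 64) {n : ℕ} (hn : 0 < n) {s : ℝ} (hs : 0 < s) (m a : ℕ) :
    Gn θ n a - 128 * |θ| / (2 * s) * ((m : ℝ) - a) ^ 2 - 128 * |θ| * s / 2 ≤ Gn θ n m := by
  have h := (abs_le.1 (Gn_lipschitz (θ := θ) hθ hn m a)).1
  have hy : |(m : ℝ) - a| ≤ ((m : ℝ) - a) ^ 2 / (2 * s) + s / 2 := by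
    rw [div_add' _ _ _ (by positivity : (2 * s) ≠ 0), le_div_iff₀ (by positivity)]
    nlinarith [sq_nonneg (|(m : ℝ) - a| - s), sq_abs ((m : ℝ) - a)]
  have hh := mul_le_mul_of_nonneg_left hy (by positivity : (0 : ℝ) ≤ 128 * |θ|)
  have e : 128 * |θ| * (((m : ℝ) - a) ^ 2 / (2 * s) + s / 2) =
      128 * |θ| / (2 * s) * ((m : ℝ) - a) ^ 2 + 128 * |θ| * s / 2 := by ring
  linarith

theorem unit_mem {a b : ℕ} (ha : 0 < a) : ((a : ℝ) / (a + b : ℕ)) ∈ Icc (0 : ℝ) 1 := by
  have hpos : (0 : ℝ) < ((a + b : ℕ) : ℝ) := by exact_mod_cast Nat.add_pos_left ha b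
  refine ⟨by positivity, (div_le_one hpos).2 ?_⟩
  exact_mod_cast Nat.le_add_right a b

/-- The iterated splitting inequality. -/
theorem Gn_iterate (hθ : |θ| ≤ 1 / 5000) {n : ℕ} (hn : 0 < n) (a : ℕ) {s : ℝ} (hs : 0 < s) :
    ∀ q : ℕ, 0 < q → ∀ M : ℕ,
      (q : ℝ) * Gn θ n a - 128 * |θ| / (2 * s) *
          ((M : ℝ) * (1 - 1 / q) + ((M : ℝ) - q * a) ^ 2 / q) - q * (128 * |θ| * s / 2) ≤
        Gn θ (q * n) M := by
  have hθ' : |θ| ≤ 1 / 64 := hθ.trans (by norm_num)
  intro q hq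
  induction q with
  | zero => omega
  | succ q ih =>
    intro M
    rcases Nat.eq_zero_or_pos q with rfl | hq0
    · simpa using Gn_ge_near (θ := θ) hθ' hn hs M a
    set K := 128 * |θ| / (2 * s) with hK
    have hqn : 0 < q * n := Nat.mul_pos hq0 hn
    have hqr : (0 : ℝ) < q := by exact_mod_cast hq0
    set u := (n : ℝ) / (n + q * n : ℕ) with hu
    have hu1 : u = 1 / ((q : ℝ) + 1) := by
      rw [hu]; push_cast
      have : (n : ℝ) ≠ 0 := by exact_mod_cast hn.ne'
      field_simp; ring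
    set c2 := -K * (1 + 1 / (q : ℝ)) with hc2
    set c1 := -K * (-2 * (a : ℝ) - (1 - 1 / (q : ℝ)) - 2 * ((M : ℝ) - q * a) / q) with hc1
    set c0 := ((q : ℝ) + 1) * Gn θ n a -
      K * ((a : ℝ) ^ 2 + (M : ℝ) * (1 - 1 / q) + ((M : ℝ) - q * a) ^ 2 / q) -
      ((q : ℝ) + 1) * (128 * |θ| * s / 2) with hc0
    have hpt : ∀ B ≤ M, c0 + c1 * (B : ℝ) + c2 * (B : ℝ) ^ 2 ≤
        Gn θ n B + Gn θ (q * n) (M - B) := by
      intro B hB
      have h1 := Gn_ge_near (θ := θ) hθ' hn hs B a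
      have h2 := ih hq0 (M - B)
      rw [Nat.cast_sub hB] at h2
      refine le_trans (le_of_eq ?_) (add_le_add h1 h2)
      rw [hc0, hc1, hc2]
      ring
    have hb := (bin_mono (unit_mem (b := q * n) hn) M _ _ hpt).trans
      (Gn_super (θ := θ) hθ hn hqn M)
    rw [bin_quad, show n + q * n = (q + 1) * n by ring] at hb
    rw [show ((n : ℝ) / ((q + 1) * n : ℕ)) = 1 / ((q : ℝ) + 1) by
      rw [← hu1, hu, show n + q * n = (q + 1) * n by ring]] at hb
    refine le_trans (le_of_eq ?_) hb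
    rw [hc0, hc1, hc2, hK]
    push_cast
    field_simp
    ring

theorem Gn_lower (hθ : |θ| ≤ 1 / 5000) {α : ℝ} (hα : 0 ≤ α) {n N : ℕ} (hn : 0 < n) (hN : n ≤ N) :
    ((N / n : ℕ) : ℝ) * Gn θ n ⌊α * n⌋₊ -
        128 * |θ| / (2 * √n) * (α * N + 2 * (N / n : ℕ) + 2 * (α * n + 1) ^ 2) -
        ((N / n : ℕ) : ℝ) * (128 * |θ| * √n / 2) - 2 * (128 * |θ|) * α * n ≤
      Gn θ N ⌊α * N⌋₊ := by
  have hθ' : |θ| ≤ 1 / 64 := hθ.trans (by norm_num)
  set q := N / n with hq
  set r := N % n with hr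
  set M := ⌊α * N⌋₊ with hM
  set a := ⌊α * n⌋₊ with ha
  have hqpos : 0 < q := Nat.div_pos hN hn
  have hs : 0 < √(n : ℝ) := Real.sqrt_pos.2 (by exact_mod_cast hn)
  have hdecomp : N = r + q * n := by
    rw [hr, hq, mul_comm]; exact (Nat.mod_add_div N n).symm
  have hrn : (r : ℝ) ≤ n := by exact_mod_cast (Nat.mod_lt N hn).le
  have hqr : (1 : ℝ) ≤ q := by exact_mod_cast hqpos
  have hMle : (M : ℝ) ≤ α * N := Nat.floor_le (by positivity)
  have hMge : α * N - 1 ≤ M := by linarith [Nat.lt_floor_add_one (α * N)]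
  have hale : (a : ℝ) ≤ α * n := Nat.floor_le (by positivity)
  have hage : α * n - 1 ≤ a := by linarith [Nat.lt_floor_add_one (α * n)]
  have hNr : (N : ℝ) = r + q * n := by exact_mod_cast hdecomp
  have h1 := Gn_iterate (θ := θ) hθ hn a hs q hqpos M
  have hdev : ((M : ℝ) - q * a) ^ 2 / q ≤ 2 * q + 2 * (α * n + 1) ^ 2 := by
    have habs : |(M : ℝ) - q * a| ≤ q + (α * n + 1) := by
      have e1 := mul_le_mul_of_nonneg_left hrn hα
      have e2 := mul_le_mul_of_nonneg_left hale (zero_le_one.trans hqr)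
      have e3 := mul_le_mul_of_nonneg_left hage (zero_le_one.trans hqr)
      have e4 : 0 ≤ α * r := mul_nonneg hα (Nat.cast_nonneg r)
      rw [hNr] at hMle hMge
      rw [abs_le]
      constructor <;> linarith
    rw [div_le_iff₀ (lt_of_lt_of_le one_pos hqr)]
    have h2 := pow_le_pow_left₀ (abs_nonneg _) habs 2
    rw [sq_abs] at h2
    nlinarith [sq_nonneg ((q : ℝ) - (α * n + 1)), mul_nonneg (sub_nonneg.2 hqr)
      (sq_nonneg (α * n + 1))]
  have hV : (M : ℝ) * (1 - 1 / q) + ((M : ℝ) - q * a) ^ 2 / q ≤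
      α * N + 2 * q + 2 * (α * n + 1) ^ 2 := by
    have : (M : ℝ) * (1 - 1 / q) ≤ M := by
      have : (0 : ℝ) ≤ M / q := by positivity
      rw [mul_sub, mul_one, mul_one_div]; linarith
    linarith
  have hV' := mul_le_mul_of_nonneg_left hV
    (by positivity : (0 : ℝ) ≤ 128 * |θ| / (2 * √n))
  have hsplit : Gn θ (q * n) M - 2 * (128 * |θ|) * α * n ≤ Gn θ N M := by
    rcases Nat.eq_zero_or_pos r with h0 | hrpos
    · rw [h0, zero_add] at hdecomp
      rw [← hdecomp]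
      have : 0 ≤ 2 * (128 * |θ|) * α * n := by positivity
      linarith
    have hqn : 0 < q * n := Nat.mul_pos hqpos hn
    have hpt : ∀ B ≤ M, Gn θ (q * n) M + (-(2 * (128 * |θ|))) * (B : ℝ) + 0 * (B : ℝ) ^ 2 ≤
        Gn θ r B + Gn θ (q * n) (M - B) := by
      intro B hB
      have e1 := (abs_le.1 (Gn_abs_le (θ := θ) hθ' hrpos B)).1
      have e2 := Gn_lipschitz (θ := θ) hθ' hqn (M - B) M
      rw [Nat.cast_sub hB, sub_sub_cancel_left, abs_neg,
        abs_of_nonneg (Nat.cast_nonneg B : (0 : ℝ) ≤ B)] at e2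
      have := (abs_le.1 e2).1
      linarith
    have hb := (bin_mono (unit_mem (b := q * n) hrpos) M _ _ hpt).trans
      (Gn_super (θ := θ) hθ hrpos hqn M)
    rw [bin_quad, ← hdecomp] at hb
    have hMu : (M : ℝ) * ((r : ℝ) / N) ≤ α * n := by
      have hNpos : (0 : ℝ) < N := by exact_mod_cast lt_of_lt_of_le hn hN
      calc (M : ℝ) * ((r : ℝ) / N) ≤ α * N * ((r : ℝ) / N) := by gcongr
        _ = α * r := by field_simp
        _ ≤ _ := mul_le_mul_of_nonneg_left hrn hα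
    have := mul_le_mul_of_nonneg_left hMu (by positivity : (0 : ℝ) ≤ 2 * (128 * |θ|))
    linarith
  linarith

/-- The normalised expected log-partition function has a limit. -/
theorem Gn_tendsto (hθ : |θ| ≤ 1 / 5000) {α : ℝ} (hα : 0 ≤ α) :
    ∃ ℓ : ℝ, Tendsto (fun N : ℕ => Gn θ N ⌊α * N⌋₊ / N) atTop (𝓝 ℓ) := by
  have hθ' : |θ| ≤ 1 / 64 := hθ.trans (by norm_num)
  set C := 128 * |θ| with hC
  have hC0 : 0 ≤ C := by positivity
  set D := C * (α + 3) with hD
  set g := fun N : ℕ => Gn θ N ⌊α * N⌋₊ with hg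
  have hgb : ∀ N : ℕ, 0 < N → |g N / N| ≤ C * α := by
    intro N hN
    have hNr : (0 : ℝ) < N := by exact_mod_cast hN
    rw [abs_div, abs_of_pos hNr, div_le_iff₀ hNr, mul_assoc]
    exact (Gn_abs_le hθ' hN _).trans
      (mul_le_mul_of_nonneg_left (Nat.floor_le (by positivity)) hC0)
  set x := fun n : ℕ => g (n + 1) / (n + 1 : ℕ) - D / √((n + 1 : ℕ) : ℝ) with hx
  have hbdd : BddAbove (Set.range x) := ⟨C * α, by
    rintro _ ⟨n, rfl⟩
    have := (abs_le.1 (hgb (n + 1) n.succ_pos)).2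
    have : 0 ≤ D / √((n + 1 : ℕ) : ℝ) := by positivity
    simp only [hx]
    linarith⟩
  refine ⟨⨆ n, x n, ?_⟩
  rw [Metric.tendsto_nhds]
  intro ε hε
  obtain ⟨n, hn⟩ := exists_lt_of_lt_ciSup (show (⨆ n, x n) - ε / 2 < ⨆ n, x n by linarith)
  set m := n + 1 with hm
  set c := |g m| + C * (α * m + 1) ^ 2 + 2 * C * α * m with hc
  have hlim : Tendsto (fun N : ℕ => c / (N : ℝ)) atTop (𝓝 0) :=
    tendsto_const_div_atTop_nhds_zero_nat c
  have hlim2 : Tendsto (fun N : ℕ => D / √(N : ℝ)) atTop (𝓝 0) :=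
    Filter.Tendsto.const_div_atTop (Real.tendsto_sqrt_atTop.comp tendsto_natCast_atTop_atTop) D
  filter_upwards [hlim.eventually_lt_const (show (0 : ℝ) < ε / 2 by linarith),
    hlim2.eventually_lt_const hε, eventually_ge_atTop m] with N hN1 hN2 hN
  have hmpos : 0 < m := n.succ_pos
  have hNpos : 0 < N := lt_of_lt_of_le hmpos hN
  have hNr : (0 : ℝ) < N := by exact_mod_cast hNpos
  have hmr : (0 : ℝ) < m := by exact_mod_cast hmpos
  rw [Real.dist_eq, abs_lt]
  constructor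
  · have hlow := Gn_lower (θ := θ) hθ hα hmpos hN
    change _ ≤ g N at hlow
    have hgm : ((N / m : ℕ) : ℝ) * g m ≥ (N : ℝ) / m * g m - |g m| := by
      have h1 : ((N / m : ℕ) : ℝ) ≤ (N : ℝ) / m := Nat.cast_div_le
      have h2 : (N : ℝ) / m - 1 ≤ ((N / m : ℕ) : ℝ) := by
        rw [sub_le_iff_le_add, div_le_iff₀ hmr]
        exact_mod_cast (Nat.lt_mul_div_succ N hmpos).le.trans_eq (by ring)
      nlinarith [mul_le_mul_of_nonneg_left (le_abs_self (g m))
          (sub_nonneg.2 h1), abs_nonneg (g m)]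
    set s := √(m : ℝ) with hs_def
    have hs : 0 < s := Real.sqrt_pos.2 hmr
    have hss : s * s = m := Real.mul_self_sqrt hmr.le
    have hs1 : 1 ≤ s := by
      rw [hs_def]
      exact Real.one_le_sqrt.2 (by exact_mod_cast hmpos)
    have hq : ((N / m : ℕ) : ℝ) ≤ (N : ℝ) / m := Nat.cast_div_le
    have hm1 : (1 : ℝ) ≤ m := by exact_mod_cast hmpos
    have h3 : C / (2 * s) * (α * N + 2 * (N / m : ℕ) + 2 * (α * m + 1) ^ 2) +
        ((N / m : ℕ) : ℝ) * (C * s / 2) ≤ N * (D / s) + C * (α * m + 1) ^ 2 := by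
      have a1 : C / (2 * s) * (2 * (α * m + 1) ^ 2) ≤ C * (α * m + 1) ^ 2 := by
        have e : C / (2 * s) * (2 * (α * m + 1) ^ 2) = C * (α * m + 1) ^ 2 / s := by field_simp
        rw [e]; exact div_le_self (by positivity) hs1
      have a2 : C / (2 * s) * (2 * ((N / m : ℕ) : ℝ)) ≤ N * (C / s) := by
        have e : C / (2 * s) * (2 * ((N / m : ℕ) : ℝ)) = ((N / m : ℕ) : ℝ) * (C / s) := by
          field_simp
        rw [e]
        exact mul_le_mul_of_nonneg_right (hq.trans (div_le_self hNr.le hm1)) (by positivity)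
      have a3 : ((N / m : ℕ) : ℝ) * (C * s / 2) ≤ N * (C / (2 * s)) := by
        refine (mul_le_mul_of_nonneg_right hq (by positivity)).trans (le_of_eq ?_)
        rw [← hss]; field_simp
      have a4 : C / (2 * s) * (α * N) + N * (C / s) + N * (C / (2 * s)) ≤ N * (D / s) := by
        rw [hD]
        have : 0 ≤ C / s * (α / 2 + 3 / 2) * N := by positivity
        have e : N * (C * (α + 3) / s) - (C / (2 * s) * (α * N) + N * (C / s) + N * (C / (2 * s))) =
            C / s * (α / 2 + 3 / 2) * N := by field_simp; ring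
        linarith
      linarith
    have hfin : g m / m - D / s - c / N ≤ g N / N := by
      rw [le_div_iff₀ hNr]
      have e : (g m / m - D / s - c / N) * N = N / m * g m - N * (D / s) - c := by field_simp
      rw [e, hc]
      linarith
    have hxn : x n = g m / m - D / s := rfl
    linarith
  · have hle := le_ciSup hbdd (N - 1)
    simp only [hx, Nat.sub_add_cancel hNpos] at hle
    change g N / N - _ < ε
    linarith

section Samples

variable {ι κ : Type} [Fintype ι] [DecidableEq ι] [Nonempty ι] [Fintype κ]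

/-- The log-partition function of sampled constraints. -/
noncomputable def logZ (θ : ℝ) (L : ι → κ → ℝ) {M : ℕ} (p : ι → ℝ) (g : Fin M → κ → ℝ) : ℝ :=
  Real.log (∑ i, p i * ∏ k, f1 θ (∑ a, L i a * g k a))

/-- The law of `M` independent Gaussian vectors. -/
noncomputable def gaussN (M : ℕ) (κ : Type) [Fintype κ] : Measure (Fin M → κ → ℝ) :=
  Measure.pi fun _ => gauss κ

instance gaussN_prob (M : ℕ) (κ : Type) [Fintype κ] : IsProbabilityMeasure (gaussN M κ) := by
  unfold gaussN; infer_instance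

theorem logZ_succ (L : ι → κ → ℝ) {M : ℕ} (p : ι → ℝ) (g : Fin (M + 1) → κ → ℝ) :
    logZ θ L p g = logZ θ L (tilt θ L p (g 0)) (fun j => g j.succ) := by
  simp only [logZ, tilt, Fin.prod_univ_succ, mul_assoc]

theorem logZ_bound (L : ι → κ → ℝ) (hL : ∀ i, ∑ k, L i k ^ 2 = 1) :
    ∀ {M : ℕ} (p : ι → ℝ), (∀ i, 0 < p i) → ∀ g : Fin M → κ → ℝ,
      |logZ θ L p g - Real.log (∑ i, p i)| ≤ |θ| * ∑ k, len2 (g k) := by
  intro M
  induction M with
  | zero => intro p _ g; simp [logZ]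
  | succ M ih =>
    intro p hp g
    rw [logZ_succ, Fin.sum_univ_succ, mul_add]
    refine (abs_sub_le _ _ _).trans ((add_le_add (ih _ (tilt_pos (θ := θ) L hp (g 0)) _)
      (log_tilt_bound (θ := θ) L hL hp (g 0))).trans_eq (by ring))

theorem measurable_logZ (L : ι → κ → ℝ) {M : ℕ} {X : Type} [MeasurableSpace X] {q : X → ι → ℝ}
    (hq : Measurable q) :
    Measurable fun z : X × (Fin M → κ → ℝ) => logZ θ L (q z.1) z.2 :=
  Real.measurable_log.comp (Finset.measurable_sum _ fun i _ =>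
    ((measurable_pi_apply i).comp (hq.comp measurable_fst)).mul
      ((by unfold f1; fun_prop : Continuous fun g : Fin M → κ → ℝ =>
        ∏ k, f1 θ (∑ a, L i a * g k a)).measurable.comp measurable_snd))

theorem memLp_logZ (L : ι → κ → ℝ) (hL : ∀ i, ∑ k, L i k ^ 2 = 1) {M : ℕ} {p : ι → ℝ}
    (hp : ∀ i, 0 < p i) : MemLp (logZ θ L p) 2 (gaussN M κ) := by
  have hm : Measurable (logZ θ L (M := M) p) :=
    Real.measurable_log.comp (Finset.measurable_sum _ fun i _ =>
      ((by unfold f1; fun_prop : Continuous fun g : Fin M → κ → ℝ =>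
        p i * ∏ k, f1 θ (∑ a, L i a * g k a)).measurable))
  have hlen : MemLp (len2 : (κ → ℝ) → ℝ) 2 (gauss κ) :=
    (memLp_two_iff_integrable_sq integrable_len2.aestronglyMeasurable).2 integrable_len2_sq
  have hsum : MemLp (fun g : Fin M → κ → ℝ => ∑ k, len2 (g k)) 2 (gaussN M κ) :=
    memLp_finsetSum _ fun k _ =>
      hlen.comp_measurePreserving (measurePreserving_eval (fun _ : Fin M => gauss κ) k)
  refine MemLp.of_le_mul (c := 1)
    ((memLp_const |Real.log (∑ i, p i)|).add (hsum.const_mul |θ|)) hm.aestronglyMeasurable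
    (.of_forall fun g => ?_)
  rw [one_mul, Real.norm_eq_abs]
  refine le_trans ?_ (le_abs_self _)
  simp only [Pi.add_apply]
  linarith [abs_sub_abs_le_abs_sub (logZ θ L p g) (Real.log (∑ i, p i)),
    logZ_bound (θ := θ) L hL p hp g]

theorem integral_sq_split {α : Type*} [MeasurableSpace α] {μ : Measure α} [IsProbabilityMeasure μ]
    {f : α → ℝ} (hf : MemLp f 2 μ) (c : ℝ) :
    ∫ x, (f x - c) ^ 2 ∂μ =
      (∫ x, (f x - ∫ y, f y ∂μ) ^ 2 ∂μ) + ((∫ y, f y ∂μ) - c) ^ 2 := by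
  have h1 : Integrable f μ := hf.integrable (by norm_num)
  have h2 : Integrable (fun x => f x ^ 2) μ := hf.integrable_sq
  have key : ∀ d : ℝ, ∫ x, (f x - d) ^ 2 ∂μ =
      (∫ x, f x ^ 2 ∂μ) - 2 * d * (∫ x, f x ∂μ) + d ^ 2 := by
    intro d
    have e : (fun x => (f x - d) ^ 2) = fun x => (f x ^ 2 - 2 * d * f x) + d ^ 2 := by
      funext x; ring
    rw [e, integral_add (f := fun x => f x ^ 2 - 2 * d * f x) (g := fun _ => d ^ 2)
        (h2.sub (h1.const_mul (2 * d))) (integrable_const _),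
      integral_sub (f := fun x => f x ^ 2) (g := fun x => 2 * d * f x) h2 (h1.const_mul (2 * d)),
      integral_const_mul, integral_const, probReal_univ, one_smul]
  rw [key, key]
  ring

theorem memLp_val_tilt (cs : List (ι → κ → ℝ)) (hu : UnitRows cs) (L : ι → κ → ℝ)
    (hL : ∀ i, ∑ k, L i k ^ 2 = 1) {p : ι → ℝ} (hp : ∀ i, 0 < p i) :
    MemLp (fun a => val θ cs (tilt θ L p a)) 2 (gauss κ) := by
  have hl : MemLp (len2 : (κ → ℝ) → ℝ) 2 (gauss κ) :=
    (memLp_two_iff_integrable_sq integrable_len2.aestronglyMeasurable).2 integrable_len2_sq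
  have h2 : MemLp (fun a : κ → ℝ => |θ| * len2 a) 2 (gauss κ) := hl.const_mul |θ|
  have hb := (memLp_const (μ := gauss κ) (p := 2) |val θ cs p|).add h2
  refine hb.of_le_mul (c := 1) (measurable_val_tilt cs L p).aestronglyMeasurable
    (.of_forall fun a => ?_)
  rw [one_mul, Real.norm_eq_abs]
  refine le_trans ?_ (le_abs_self _)
  simp only [Pi.add_apply]
  linarith [val_tilt_diff_le (θ := θ) cs hu L hL hp a,
    abs_sub_abs_le_abs_sub (val θ cs (tilt θ L p a)) (val θ cs p)]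

/-- The log-partition function with the first sample split off. -/
noncomputable def logZ1 (θ : ℝ) (L : ι → κ → ℝ) (p : ι → ℝ) {M : ℕ}
    (z : (κ → ℝ) × (Fin M → κ → ℝ)) : ℝ :=
  logZ θ L (tilt θ L p z.1) z.2

theorem logZ_cons (L : ι → κ → ℝ) (p : ι → ℝ) {M : ℕ} (g : Fin (M + 1) → κ → ℝ) :
    logZ θ L p g =
      logZ1 θ L p (MeasurableEquiv.piFinSuccAbove (fun _ : Fin (M + 1) => κ → ℝ) 0 g) := by
  rw [logZ_succ]
  simp [logZ1, MeasurableEquiv.piFinSuccAbove_apply, Fin.tail_def]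

theorem memLp_logZ1 (L : ι → κ → ℝ) (hL : ∀ i, ∑ k, L i k ^ 2 = 1) {M : ℕ} {p : ι → ℝ}
    (hp : ∀ i, 0 < p i) : MemLp (logZ1 θ L p (M := M)) 2 ((gauss κ).prod (gaussN M κ)) := by
  have hq : Measurable fun g : κ → ℝ => tilt θ L p g :=
    measurable_pi_iff.2 fun i => (by unfold tilt f1; fun_prop :
      Continuous fun g => tilt θ L p g i).measurable
  have hm : Measurable (logZ1 θ L p (M := M)) := measurable_logZ (θ := θ) L hq
  refine (memLp_two_iff_integrable_sq hm.aestronglyMeasurable).2 ?_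
  have hmp := measurePreserving_piFinSuccAbove (fun _ : Fin (M + 1) => gauss κ) 0
  have key : Integrable (fun g : Fin (M + 1) → κ → ℝ => logZ1 θ L p
      (MeasurableEquiv.piFinSuccAbove (fun _ : Fin (M + 1) => κ → ℝ) 0 g) ^ 2)
      (gaussN (M + 1) κ) := by
    simp only [← logZ_cons]
    exact (memLp_logZ (θ := θ) L hL (M := M + 1) hp).integrable_sq
  exact (hmp.integrable_comp_emb (MeasurableEquiv.measurableEmbedding _)
    (g := fun z : (κ → ℝ) × (Fin M → κ → ℝ) => logZ1 θ L p z ^ 2)).1 key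

theorem integral_gaussN_succ (M : ℕ) (F : (κ → ℝ) × (Fin M → κ → ℝ) → ℝ) :
    ∫ g, F (MeasurableEquiv.piFinSuccAbove (fun _ : Fin (M + 1) => κ → ℝ) 0 g)
        ∂gaussN (M + 1) κ = ∫ z, F z ∂((gauss κ).prod (gaussN M κ)) :=
  (measurePreserving_piFinSuccAbove (fun _ : Fin (M + 1) => gauss κ) 0).integral_comp
    (MeasurableEquiv.measurableEmbedding _) F

theorem var_step {M : ℕ} {F : (κ → ℝ) × (Fin M → κ → ℝ) → ℝ} {m : (κ → ℝ) → ℝ} {v w V : ℝ}
    (hF : MemLp F 2 ((gauss κ).prod (gaussN M κ))) (hm : MemLp m 2 (gauss κ))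
    (hsec : ∀ a, MemLp (fun y => F (a, y)) 2 (gaussN M κ))
    (hmean : ∀ a, ∫ y, F (a, y) ∂gaussN M κ = m a)
    (hvar : ∀ a, ∫ y, (F (a, y) - m a) ^ 2 ∂gaussN M κ ≤ V)
    (hv : ∫ a, m a ∂gauss κ = v) {W : ℝ} (hW : ∫ a, (m a - w) ^ 2 ∂gauss κ ≤ W) :
    ∫ z, (F z - v) ^ 2 ∂((gauss κ).prod (gaussN M κ)) ≤ V + W := by
  have hi2 : Integrable (fun z => (F z - v) ^ 2) ((gauss κ).prod (gaussN M κ)) :=
    (hF.sub (memLp_const v)).integrable_sq
  have him : Integrable (fun a => (m a - v) ^ 2) (gauss κ) :=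
    (hm.sub (memLp_const v)).integrable_sq
  rw [integral_prod _ hi2]
  have hinner : ∀ a, ∫ y, (F (a, y) - v) ^ 2 ∂gaussN M κ ≤ V + (m a - v) ^ 2 := fun a => by
    rw [integral_sq_split (hsec a) v, hmean a]
    exact add_le_add (hvar a) le_rfl
  refine (integral_mono hi2.integral_prod_left ((integrable_const V).add him) hinner).trans ?_
  rw [integral_add' (integrable_const V) him, integral_const, probReal_univ, one_smul]
  have h := integral_sq_split hm w
  rw [hv] at h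
  linarith [sq_nonneg (v - w)]

theorem logZ_moments (hθ : |θ| ≤ 1 / 64) (L : ι → κ → ℝ) (hL : ∀ i, ∑ k, L i k ^ 2 = 1) :
    ∀ (M : ℕ) (p : ι → ℝ), (∀ i, 0 < p i) →
      ∫ g, logZ θ L p g ∂gaussN M κ = val θ (List.replicate M L) p ∧
      ∫ g, (logZ θ L p g - val θ (List.replicate M L) p) ^ 2 ∂gaussN M κ ≤
        M * (128 * |θ|) ^ 2 := by
  intro M
  induction M with
  | zero => intro p _; simp [logZ, val]
  | succ M ih =>
    intro p hp
    have hu : UnitRows (List.replicate M L) := fun N hN => by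
      rw [List.eq_of_mem_replicate hN]; exact hL
    have hF := memLp_logZ1 (θ := θ) L hL (M := M) hp
    have hval : val θ (List.replicate (M + 1) L) p =
        ∫ a, val θ (List.replicate M L) (tilt θ L p a) ∂gauss κ := by
      rw [List.replicate_succ]; rfl
    have hmean : ∫ g, logZ θ L p g ∂gaussN (M + 1) κ = val θ (List.replicate (M + 1) L) p := by
      simp only [logZ_cons]
      rw [integral_gaussN_succ M (logZ1 θ L p), integral_prod _ (hF.integrable (by norm_num)), hval]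
      exact integral_congr_ae (.of_forall fun a => (ih _ (tilt_pos L hp a)).1)
    refine ⟨hmean, ?_⟩
    simp only [logZ_cons]
    rw [integral_gaussN_succ M (fun z => (logZ1 θ L p z - val θ (List.replicate (M + 1) L) p) ^ 2)]
    push_cast
    rw [add_mul, one_mul]
    exact var_step hF (memLp_val_tilt _ hu L hL hp)
      (fun a => memLp_logZ L hL (tilt_pos (θ := θ) L hp a))
      (fun a => (ih _ (tilt_pos L hp a)).1) (fun a => (ih _ (tilt_pos L hp a)).2) hval.symm
      (val_tilt_sq_le (θ := θ) _ hu L hL hθ p hp)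

end Samples

/-- The pressure of a coupling matrix. -/
noncomputable def matrixPressure {N : ℕ} (β : ℝ) (J : Matrix (Fin N) (Fin N) ℝ) : ℝ :=
  Real.log (((2 : ℝ) ^ N)⁻¹ * ∑ s : Fin N → Bool, Real.exp (β / 2 *
    ((fun i => if s i then (1 : ℝ) else -1) ⬝ᵥ J *ᵥ (fun i => if s i then (1 : ℝ) else -1)))) / N

/-- The Wishart coupling `(t/N) ∑ₖ gₖ gₖᵀ`. -/
noncomputable def wishart (t : ℝ) {M N : ℕ} (g : Fin M → Fin N → ℝ) :
    Matrix (Fin N) (Fin N) ℝ :=
  (t / N) • ∑ k, Matrix.vecMulVec (g k) (g k)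

theorem quad_vecMulVec {N : ℕ} (x σ : Fin N → ℝ) :
    σ ⬝ᵥ Matrix.vecMulVec x x *ᵥ σ = (σ ⬝ᵥ x) ^ 2 := by
  rw [Matrix.vecMulVec_mulVec]
  simp [dotProduct, sq, Finset.sum_mul, Finset.mul_sum, mul_comm, mul_left_comm]

theorem matrixPressure_eq (β t : ℝ) {M N : ℕ} (g : Fin M → Fin N → ℝ) :
    matrixPressure β (wishart t g) =
      logZ (-(β * t / 2)) (row (Fin N)) (unif (Fin N)) g / N := by
  unfold matrixPressure logZ
  rw [Finset.mul_sum]
  congr 2
  refine Finset.sum_congr rfl fun s _ => ?_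
  simp only [unif, Fintype.card_fin]
  congr 1
  simp only [f1, ← Real.exp_sum, wishart, Matrix.smul_mulVec, Matrix.sum_mulVec, dotProduct_smul,
    dotProduct_sum, quad_vecMulVec, smul_eq_mul, Finset.mul_sum]
  congr 1
  refine Finset.sum_congr rfl fun k _ => ?_
  simp only [row, Fintype.card_fin, div_mul_eq_mul_div, ← Finset.sum_div, dotProduct]
  rw [div_pow, Real.sq_sqrt (Nat.cast_nonneg N)]
  ring

/-- Existence of the limiting pressure for Wishart couplings with small jumps. -/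
theorem wishart_limit (β t α : ℝ) (hα : 0 ≤ α) (h : |β * t| ≤ 1 / 2500) :
    ∃ ℓ : ℝ, Tendsto (fun N : ℕ => ∫ g : Fin ⌊α * N⌋₊ → Fin N → ℝ,
      |matrixPressure β (wishart t g) - ℓ|
        ∂(Measure.pi fun _ => Measure.pi fun _ => gaussianReal 0 1)) atTop (𝓝 0) := by
  set θ := -(β * t / 2) with hθd
  have hθ : |θ| ≤ 1 / 5000 := by
    rw [hθd, abs_neg, abs_div, abs_two]; linarith
  have hθ' : |θ| ≤ 1 / 64 := hθ.trans (by norm_num)
  obtain ⟨ℓ, hℓ⟩ := Gn_tendsto (θ := θ) hθ hα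
  refine ⟨ℓ, ?_⟩
  have hbound : Tendsto (fun N : ℕ => √(α * (128 * |θ|) ^ 2 / N) +
      |Gn θ N ⌊α * N⌋₊ / N - ℓ|) atTop (𝓝 (√0 + |ℓ - ℓ|)) :=
    ((tendsto_const_div_atTop_nhds_zero_nat _).sqrt).add (hℓ.sub_const ℓ).abs
  simp only [Real.sqrt_zero, sub_self, abs_zero, add_zero] at hbound
  refine squeeze_zero' (.of_forall fun N => integral_nonneg fun g => abs_nonneg _) ?_ hbound
  filter_upwards [eventually_gt_atTop 0] with N hN
  have : Nonempty (Fin N) := ⟨⟨0, hN⟩⟩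
  have hNr : (0 : ℝ) < N := by exact_mod_cast hN
  set M := ⌊α * N⌋₊
  obtain ⟨h1, h2⟩ := logZ_moments (θ := θ) hθ' (row (Fin N)) (row_unit (Fin N)) M (unif (Fin N))
    (unif_pos (Fin N))
  have hmem := memLp_logZ (θ := θ) (row (Fin N)) (row_unit (Fin N)) (M := M) (unif_pos (Fin N))
  set v := val θ (List.replicate M (row (Fin N))) (unif (Fin N))
  change ∫ g, |matrixPressure β (wishart t g) - ℓ| ∂gaussN M (Fin N) ≤ _
  simp only [matrixPressure_eq, ← hθd]
  have hvG : v = Gn θ N M := rfl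
  rw [← hvG]
  set Y := fun g : Fin M → Fin N → ℝ => logZ θ (row (Fin N)) (unif (Fin N)) g - v
  have hYm : MemLp Y 2 (gaussN M (Fin N)) := hmem.sub (memLp_const v)
  have hY1 : ∫ g, |Y g| ∂gaussN M (Fin N) ≤ √((M : ℝ) * (128 * |θ|) ^ 2) := by
    refine Real.le_sqrt_of_sq_le (le_trans ?_ h2)
    have hi : Integrable (fun g => |Y g|) (gaussN M (Fin N)) := (hYm.integrable (by norm_num)).abs
    have hi2 : Integrable (fun g => |Y g| ^ 2) (gaussN M (Fin N)) := by
      simpa only [sq_abs] using hYm.integrable_sq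
    refine (sq_integral_le' hi hi2).trans (le_of_eq ?_)
    simp only [sq_abs, Y]
  have hpt : ∀ g, |logZ θ (row (Fin N)) (unif (Fin N)) g / N - ℓ| ≤
      |Y g| / N + |v / N - ℓ| := fun g => by
    refine (abs_sub_le _ (v / N) _).trans (add_le_add (le_of_eq ?_) le_rfl)
    rw [← sub_div, abs_div, abs_of_pos hNr]
  have hiY : Integrable (fun g => |Y g| / N) (gaussN M (Fin N)) :=
    (hYm.integrable (by norm_num)).abs.div_const _
  refine (integral_mono_of_nonneg (.of_forall fun g => abs_nonneg _)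
    (hiY.add (integrable_const _)) (.of_forall hpt)).trans ?_
  simp only [Pi.add_apply]
  rw [integral_add hiY (integrable_const _), integral_const, probReal_univ, one_smul, integral_div]
  refine add_le_add ?_ le_rfl
  rw [div_le_iff₀ hNr]
  refine hY1.trans (le_trans (b := √(α * N * (128 * |θ|) ^ 2)) ?_ (le_of_eq ?_))
  · exact Real.sqrt_le_sqrt (mul_le_mul_of_nonneg_right (Nat.floor_le (by positivity)) (sq_nonneg _))
  · rw [← Real.sqrt_sq hNr.le, ← Real.sqrt_mul (by positivity), Real.sqrt_sq hNr.le]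
    congr 1
    field_simp

end Vale.Agent.P166.Wishart
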