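import Vale.Agent.P166.Wishart.Concave

/-! Iterated Gaussian averages of log-partition functions and the splitting inequality. -/

open MeasureTheory ProbabilityTheory Filter Topology Set

namespace Vale.Agent.P166.Wishart

open Vale.Agent.P146 (PolyBd gauss)

variable {ι κ : Type} [Fintype ι] [DecidableEq ι] [Nonempty ι] [Fintype κ]

/-- The weight of one constraint. -/
noncomputable def tilt (θ : ℝ) (L : ι → κ → ℝ) (p : ι → ℝ) (g : κ → ℝ) : ι → ℝ :=
  fun i => p i * f1 θ (∑ k, L i k * g k)

/-- Expected log-partition function of a list of independent Gaussian constraints. -/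
noncomputable def val (θ : ℝ) : List (ι → κ → ℝ) → (ι → ℝ) → ℝ
  | [], p => Real.log (∑ i, p i)
  | L :: cs, p => ∫ g, val θ cs (tilt θ L p g) ∂gauss κ

/-- All constraints have unit rows. -/
def UnitRows (cs : List (ι → κ → ℝ)) : Prop := ∀ L ∈ cs, ∀ i, ∑ k, L i k ^ 2 = 1

/-- The squared length of a Gaussian vector. -/
def len2 (g : κ → ℝ) : ℝ := ∑ k, g k ^ 2

theorem integrable_len2 : Integrable (len2 : (κ → ℝ) → ℝ) (gauss κ) :=
  integrable_finsetSum _ fun k _ => integrable_cont_polyBd ((continuous_apply k).pow 2)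
    (by simpa [sq] using (polyBd_coord k).mul (polyBd_coord k))

variable {θ : ℝ}

theorem tilt_pos (L : ι → κ → ℝ) {p : ι → ℝ} (hp : ∀ i, 0 < p i) (g : κ → ℝ) (i : ι) :
    0 < tilt θ L p g i :=
  mul_pos (hp i) (Real.exp_pos _)

theorem tilt_bounds (L : ι → κ → ℝ) (hL : ∀ i, ∑ k, L i k ^ 2 = 1) {p : ι → ℝ}
    (hp : ∀ i, 0 < p i) (g : κ → ℝ) (i : ι) :
    Real.exp (-(|θ| * len2 g)) * p i ≤ tilt θ L p g i ∧
      tilt θ L p g i ≤ Real.exp (|θ| * len2 g) * p i := by
  have hcs := Finset.sum_mul_sq_le_sq_mul_sq Finset.univ (L i) g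
  rw [hL i, one_mul] at hcs
  have hx : |-θ * (∑ k, L i k * g k) ^ 2| ≤ |θ| * len2 g := by
    rw [abs_mul, abs_neg, abs_of_nonneg (sq_nonneg (∑ k, L i k * g k))]
    exact mul_le_mul_of_nonneg_left hcs (abs_nonneg θ)
  rw [tilt, mul_comm (Real.exp _), mul_comm (Real.exp _)]
  exact ⟨mul_le_mul_of_nonneg_left (Real.exp_le_exp.2 (abs_le.1 hx).1) (hp i).le,
    mul_le_mul_of_nonneg_left (Real.exp_le_exp.2 (abs_le.1 hx).2) (hp i).le⟩

theorem log_tilt_bound (L : ι → κ → ℝ) (hL : ∀ i, ∑ k, L i k ^ 2 = 1) {p : ι → ℝ}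
    (hp : ∀ i, 0 < p i) (g : κ → ℝ) :
    |Real.log (∑ i, tilt θ L p g i) - Real.log (∑ i, p i)| ≤ |θ| * len2 g := by
  have hs : 0 < ∑ i, p i := Finset.sum_pos (fun i _ => hp i) Finset.univ_nonempty
  have ht : 0 < ∑ i, tilt θ L p g i :=
    Finset.sum_pos (fun i _ => tilt_pos L hp g i) Finset.univ_nonempty
  have h1 := Real.log_le_log (mul_pos (Real.exp_pos _) hs) (show Real.exp (-(|θ| * len2 g)) *
      ∑ i, p i ≤ ∑ i, tilt θ L p g i by
    rw [Finset.mul_sum]; exact Finset.sum_le_sum fun i _ => (tilt_bounds L hL hp g i).1)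
  have h2 := Real.log_le_log ht (show ∑ i, tilt θ L p g i ≤ Real.exp (|θ| * len2 g) * ∑ i, p i by
    rw [Finset.mul_sum]; exact Finset.sum_le_sum fun i _ => (tilt_bounds L hL hp g i).2)
  rw [Real.log_mul (Real.exp_pos _).ne' hs.ne', Real.log_exp] at h1 h2
  rw [abs_le]
  constructor <;> linarith

theorem measurable_tilt {X : Type*} [MeasurableSpace X] (L : ι → κ → ℝ) {q : X → ι → ℝ}
    (hq : Measurable q) : Measurable fun z : X × (κ → ℝ) => tilt θ L (q z.1) z.2 :=
  measurable_pi_iff.2 fun i =>
    ((measurable_pi_apply i).comp (hq.comp measurable_fst)).mul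
      ((by unfold f1; fun_prop : Continuous fun g : κ → ℝ =>
        f1 θ (∑ k, L i k * g k)).measurable.comp measurable_snd)

theorem measurable_val (cs : List (ι → κ → ℝ)) :
    ∀ {X : Type} [MeasurableSpace X] {q : X → ι → ℝ}, Measurable q →
      Measurable fun x => val θ cs (q x) := by
  induction cs with
  | nil =>
    intro X _ q hq
    exact Real.measurable_log.comp
      (Finset.measurable_sum _ fun i _ => (measurable_pi_apply i).comp hq)
  | cons L cs ih =>
    intro X _ q hq
    exact ((ih (measurable_tilt L hq)).stronglyMeasurable.integral_prod_right').measurable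

theorem measurable_val_tilt (cs : List (ι → κ → ℝ)) (L : ι → κ → ℝ) (p : ι → ℝ) :
    Measurable fun g => val θ cs (tilt θ L p g) := by
  refine measurable_val cs (measurable_pi_iff.2 fun i => Continuous.measurable ?_)
  unfold tilt f1
  fun_prop

/-- The crude size constant. -/
noncomputable def crude (θ : ℝ) (κ : Type) [Fintype κ] : ℝ := |θ| * ∫ g, len2 g ∂gauss κ

theorem val_bound : ∀ (cs : List (ι → κ → ℝ)), UnitRows cs → ∀ p : ι → ℝ, (∀ i, 0 < p i) →
    |val θ cs p - Real.log (∑ i, p i)| ≤ cs.length * crude θ κ := by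
  intro cs
  induction cs with
  | nil => intro _ p _; simp [val]
  | cons L cs ih =>
    intro hc p hp
    have hL := hc L List.mem_cons_self
    have hc' : UnitRows cs := fun M hM => hc M (List.mem_cons_of_mem _ hM)
    have hpt : ∀ g, |val θ cs (tilt θ L p g) - Real.log (∑ i, p i)| ≤
        cs.length * crude θ κ + |θ| * len2 g := fun g =>
      (abs_sub_le _ _ _).trans (add_le_add (ih hc' _ (tilt_pos L hp g)) (log_tilt_bound L hL hp g))
    have hi : Integrable (fun g => val θ cs (tilt θ L p g) - Real.log (∑ i, p i)) (gauss κ) :=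
      ((integrable_const _).add (integrable_len2.const_mul _)).mono'
        ((measurable_val_tilt cs L p).sub_const _).aestronglyMeasurable (.of_forall hpt)
    have e : val θ (L :: cs) p - Real.log (∑ i, p i) =
        ∫ g, (val θ cs (tilt θ L p g) - Real.log (∑ i, p i)) ∂gauss κ := by
      have hi2 : Integrable (fun g => val θ cs (tilt θ L p g)) (gauss κ) := by
        refine (hi.add (integrable_const (Real.log (∑ i, p i)))).congr (.of_forall fun g => ?_)
        simp
      rw [integral_sub hi2 (integrable_const _)]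
      simp [val]
    rw [e]
    refine abs_integral_le_integral_abs.trans ((integral_mono hi.abs
      ((integrable_const _).add (integrable_len2.const_mul _)) hpt).trans (le_of_eq ?_))
    simp only [Pi.add_apply]
    rw [integral_add (integrable_const _) (integrable_len2.const_mul _), integral_const_mul |θ|]
    simp [crude]
    ring

theorem integrable_val_tilt (cs : List (ι → κ → ℝ)) (hc : UnitRows cs) (L : ι → κ → ℝ)
    (hL : ∀ i, ∑ k, L i k ^ 2 = 1) {p : ι → ℝ} (hp : ∀ i, 0 < p i) :
    Integrable (fun g => val θ cs (tilt θ L p g)) (gauss κ) := by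
  refine ((integrable_const (cs.length * crude θ κ + |Real.log (∑ i, p i)|)).add
    (integrable_len2.const_mul |θ|)).mono' (measurable_val_tilt cs L p).aestronglyMeasurable
    (.of_forall fun g => ?_)
  rw [Real.norm_eq_abs, Pi.add_apply]
  have h := (abs_sub_le _ _ _).trans (add_le_add (val_bound (θ := θ) cs hc _ (tilt_pos (θ := θ) L hp g))
    (log_tilt_bound (θ := θ) L hL hp g))
  linarith [abs_sub_abs_le_abs_sub (val θ cs (tilt θ L p g)) (Real.log (∑ i, p i))]

theorem UnitRows.tail {L : ι → κ → ℝ} {cs : List (ι → κ → ℝ)} (h : UnitRows (L :: cs)) :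
    (∀ i, ∑ k, L i k ^ 2 = 1) ∧ UnitRows cs :=
  ⟨h L List.mem_cons_self, fun M hM => h M (List.mem_cons_of_mem _ hM)⟩

theorem val_smul : ∀ (cs : List (ι → κ → ℝ)), UnitRows cs → ∀ p : ι → ℝ, (∀ i, 0 < p i) →
    ∀ c : ℝ, 0 < c → val θ cs (fun i => c * p i) = Real.log c + val θ cs p := by
  intro cs
  induction cs with
  | nil =>
    intro _ p hp c hc
    simp only [val, ← Finset.mul_sum]
    exact Real.log_mul hc.ne' (Finset.sum_pos (fun i _ => hp i) Finset.univ_nonempty).ne'
  | cons L cs ih =>
    intro hu p hp c hc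
    obtain ⟨hL, hu'⟩ := hu.tail
    have e : ∀ g, tilt θ L (fun i => c * p i) g = fun i => c * tilt θ L p g i := fun g => by
      funext i; simp only [tilt]; ring
    simp only [val, e, fun g => ih hu' _ (tilt_pos (θ := θ) L hp g) c hc]
    rw [integral_add (integrable_const _) (integrable_val_tilt cs hu' L hL hp)]
    simp

theorem val_mono : ∀ (cs : List (ι → κ → ℝ)), UnitRows cs → ∀ p q : ι → ℝ, (∀ i, 0 < p i) →
    (∀ i, p i ≤ q i) → val θ cs p ≤ val θ cs q := by
  intro cs
  induction cs with
  | nil =>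
    intro _ p q hp hpq
    exact Real.log_le_log (Finset.sum_pos (fun i _ => hp i) Finset.univ_nonempty)
      (Finset.sum_le_sum fun i _ => hpq i)
  | cons L cs ih =>
    intro hu p q hp hpq
    obtain ⟨hL, hu'⟩ := hu.tail
    have hq : ∀ i, 0 < q i := fun i => (hp i).trans_le (hpq i)
    exact integral_mono (integrable_val_tilt cs hu' L hL hp) (integrable_val_tilt cs hu' L hL hq)
      fun g => ih hu' _ _ (tilt_pos L hp g)
        fun i => mul_le_mul_of_nonneg_right (hpq i) (Real.exp_pos _).le

theorem val_tilt_diff_le (cs : List (ι → κ → ℝ)) (hc : UnitRows cs) (L : ι → κ → ℝ)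
    (hL : ∀ i, ∑ k, L i k ^ 2 = 1) {p : ι → ℝ} (hp : ∀ i, 0 < p i) (g : κ → ℝ) :
    |val θ cs (tilt θ L p g) - val θ cs p| ≤ |θ| * len2 g := by
  have h1 := val_mono (θ := θ) cs hc _ (tilt θ L p g)
    (fun i => mul_pos (Real.exp_pos _) (hp i)) (fun i => (tilt_bounds L hL hp g i).1)
  have h2 := val_mono (θ := θ) cs hc (tilt θ L p g) _ (tilt_pos L hp g)
    (fun i => (tilt_bounds L hL hp g i).2)
  rw [val_smul cs hc p hp _ (Real.exp_pos _), Real.log_exp] at h1 h2
  rw [abs_le]
  constructor <;> linarith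

theorem integrable_len2_sq : Integrable (fun g : κ → ℝ => len2 g ^ 2) (gauss κ) :=
  integrable_cont_polyBd (by unfold len2; fun_prop)
    (by
      have h : PolyBd (len2 : (κ → ℝ) → ℝ) := polyBd_sum _ fun k _ => by
        simpa [sq] using (polyBd_coord k).mul (polyBd_coord k)
      simpa [sq] using h.mul h)

theorem sq_integral_le' {α : Type*} [MeasurableSpace α] {μ : Measure α} [IsProbabilityMeasure μ]
    {f : α → ℝ} (hf : Integrable f μ) (hf2 : Integrable (fun x => f x ^ 2) μ) :
    (∫ x, f x ∂μ) ^ 2 ≤ ∫ x, f x ^ 2 ∂μ := by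
  set c := ∫ x, f x ∂μ with hc
  have h : 0 ≤ ∫ x, (f x - c) ^ 2 ∂μ := integral_nonneg fun x => sq_nonneg _
  have e : (fun x => (f x - c) ^ 2) = fun x => (f x ^ 2 - 2 * c * f x) + c ^ 2 := by
    funext x; ring
  rw [e, integral_add (f := fun x => f x ^ 2 - 2 * c * f x) (g := fun _ => c ^ 2)
      (hf2.sub (hf.const_mul (2 * c))) (integrable_const _),
    integral_sub (f := fun x => f x ^ 2) (g := fun x => 2 * c * f x) hf2 (hf.const_mul (2 * c)),
    integral_const_mul, integral_const, probReal_univ, one_smul, ← hc] at h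
  nlinarith

/-- The change caused by one more constraint is bounded in mean square, uniformly. -/
theorem val_tilt_sq_le : ∀ (cs : List (ι → κ → ℝ)), UnitRows cs → ∀ (L : ι → κ → ℝ),
    (∀ i, ∑ k, L i k ^ 2 = 1) → |θ| ≤ 1 / 64 → ∀ p : ι → ℝ, (∀ i, 0 < p i) →
    ∫ g, (val θ cs (tilt θ L p g) - val θ cs p) ^ 2 ∂gauss κ ≤ (128 * |θ|) ^ 2 := by
  intro cs
  induction cs with
  | nil =>
    intro _ L hL hθ p hp
    set Z := ∑ i, p i with hZdef
    have hZ : 0 < Z := Finset.sum_pos (fun i _ => hp i) Finset.univ_nonempty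
    set p' := fun i => p i / Z with hp'
    have hp'0 : ∀ i, 0 < p' i := fun i => div_pos (hp i) hZ
    have hp'1 : ∑ i, p' i = 1 := by
      simp only [hp', ← Finset.sum_div, ← hZdef]; exact div_self hZ.ne'
    set S : (κ → ℝ) → ι → ℝ := fun g i => ∑ k, L i k * g k
    have hS : ∀ i, ∀ n : ℕ, n ≤ 24 → Integrable (fun g => ex (S g i) ^ n) (gauss κ) ∧
        ∫ g, ex (S g i) ^ n ∂gauss κ ≤ 2 := by
      intro i n hn
      have h := integral_exp_sq (c := (n : ℝ) / 64) (by positivity) (by
        rw [div_le_iff₀ (by norm_num : (0 : ℝ) < 64)]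
        have : (n : ℝ) ≤ 24 := by exact_mod_cast hn
        linarith) (L i) (hL i)
      have e : ∀ g, ex (S g i) ^ n = Real.exp ((n : ℝ) / 64 * (∑ k, L i k * g k) ^ 2) := by
        intro g
        rw [ex, ← Real.exp_nat_mul]
        congr 1
        simp only [S]; ring
      simp only [e]
      exact h
    have hval : ∀ g, val θ ([] : List (ι → κ → ℝ)) (tilt θ L p g) - val θ ([] : List (ι → κ → ℝ)) p = lf θ p' (S g) := by
      intro g
      have e : zf θ p' (S g) = (∑ i, tilt θ L p g i) / Z := by
        simp only [zf, hp', tilt, S, Finset.sum_div]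
        exact Finset.sum_congr rfl fun i _ => by ring
      simp only [val, lf, e]
      rw [Real.log_div (Finset.sum_pos (fun i _ => tilt_pos L hp g i) Finset.univ_nonempty).ne'
        hZ.ne']
    simp only [hval]
    have hpt : ∀ g, lf θ p' (S g) ^ 2 ≤ (64 * |θ|) ^ 2 * pex p' 4 (S g) := fun g => by
      rw [← sq_abs]
      refine (pow_le_pow_left₀ (abs_nonneg _) (log_zf_le hp'0 hp'1 hθ (S g)).1 2).trans ?_
      rw [mul_pow]
      exact mul_le_mul_of_nonneg_left (pex_pow_le hp'0 hp'1 2 2 (S g)) (sq_nonneg _)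
    have hi : Integrable (fun g => pex p' 4 (S g)) (gauss κ) :=
      integrable_finsetSum _ fun i _ => ((hS i 4 (by norm_num)).1).const_mul _
    have hP : ∫ g, pex p' 4 (S g) ∂gauss κ ≤ 2 := by
      simp only [pex]
      rw [integral_finsetSum _ fun l _ => ((hS l 4 (by norm_num)).1).const_mul _]
      simp only [integral_const_mul]
      calc ∑ l, p' l * ∫ g, ex (S g l) ^ 4 ∂gauss κ ≤ ∑ l, p' l * 2 :=
            Finset.sum_le_sum fun l _ =>
              mul_le_mul_of_nonneg_left (hS l 4 (by norm_num)).2 (hp'0 l).le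
        _ = 2 := by rw [← Finset.sum_mul, hp'1, one_mul]
    refine (integral_mono_of_nonneg (.of_forall fun g => sq_nonneg _) (hi.const_mul _)
      (.of_forall hpt)).trans ?_
    rw [integral_const_mul]
    refine (mul_le_mul_of_nonneg_left hP (sq_nonneg _)).trans ?_
    nlinarith [sq_nonneg θ, sq_abs θ]
  | cons M cs ih =>
    intro hu L hL hθ p hp
    obtain ⟨hM, hu'⟩ := hu.tail
    set D := fun (g h : κ → ℝ) =>
      val θ cs (tilt θ M (tilt θ L p g) h) - val θ cs (tilt θ M p h) with hD
    have hcomm : ∀ g h, tilt θ M (tilt θ L p g) h = tilt θ L (tilt θ M p h) g := fun g h => by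
      funext i; simp only [tilt]; ring
    have hDb : ∀ g h, |D g h| ≤ |θ| * len2 g := fun g h => by
      simp only [hD, hcomm]
      exact val_tilt_diff_le cs hu' L hL (tilt_pos M hp h) g
    have hm1 : Measurable fun z : (κ → ℝ) × (κ → ℝ) =>
        val θ cs (tilt θ M (tilt θ L p z.1) z.2) := by
      refine measurable_val cs (measurable_tilt M (q := fun g => tilt θ L p g) ?_)
      refine measurable_pi_iff.2 fun i => Continuous.measurable ?_
      unfold tilt f1; fun_prop
    have hm : Measurable (Function.uncurry D) :=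
      hm1.sub ((measurable_val_tilt cs M p).comp measurable_snd)
    have hi2 : Integrable (Function.uncurry fun g h => D g h ^ 2) ((gauss κ).prod (gauss κ)) := by
      refine ((integrable_len2_sq.const_mul (θ ^ 2)).mul_prod (integrable_const (1 : ℝ))).mono'
        (hm.pow_const 2).aestronglyMeasurable (.of_forall fun z => ?_)
      rw [Real.norm_eq_abs, mul_one, ← sq_abs θ, ← mul_pow]
      simp only [Function.uncurry]
      rw [abs_pow]
      exact pow_le_pow_left₀ (abs_nonneg _) (hDb _ _) 2
    have hpt : ∀ g, (val θ (M :: cs) (tilt θ L p g) - val θ (M :: cs) p) ^ 2 ≤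
        ∫ h, D g h ^ 2 ∂gauss κ := by
      intro g
      simp only [val]
      rw [← integral_sub (integrable_val_tilt cs hu' M hM (tilt_pos L hp g))
        (integrable_val_tilt cs hu' M hM hp)]
      exact sq_integral_le'
        ((integrable_const (|θ| * len2 g)).mono' (hm.comp measurable_prodMk_left).aestronglyMeasurable
          (.of_forall fun h => by rw [Real.norm_eq_abs]; exact hDb g h))
        ((integrable_const ((|θ| * len2 g) ^ 2)).mono'
          ((hm.comp measurable_prodMk_left).pow_const 2).aestronglyMeasurable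
          (.of_forall fun h => by
            rw [Real.norm_eq_abs, abs_pow]
            exact pow_le_pow_left₀ (abs_nonneg _) (hDb g h) 2))
    refine (integral_mono_of_nonneg (.of_forall fun g => sq_nonneg _) hi2.integral_prod_left
      (.of_forall hpt)).trans ?_
    simp only [Function.uncurry]
    rw [integral_integral_swap hi2]
    refine (integral_mono hi2.integral_prod_right (integrable_const ((128 * |θ|) ^ 2))
      fun h => ?_).trans (le_of_eq (by simp))
    simp only [Function.uncurry, hD, hcomm]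
    exact ih hu' L hL hθ _ (tilt_pos M hp h)

theorem val_cons_diff (cs : List (ι → κ → ℝ)) (hc : UnitRows cs) (L : ι → κ → ℝ)
    (hL : ∀ i, ∑ k, L i k ^ 2 = 1) (hθ : |θ| ≤ 1 / 64) {p : ι → ℝ} (hp : ∀ i, 0 < p i) :
    |val θ (L :: cs) p - val θ cs p| ≤ 128 * |θ| := by
  have hi := integrable_val_tilt (θ := θ) cs hc L hL hp
  have e : val θ (L :: cs) p - val θ cs p =
      ∫ g, (val θ cs (tilt θ L p g) - val θ cs p) ∂gauss κ := by
    rw [integral_sub hi (integrable_const _)]; simp [val]
  have hi' : Integrable (fun g => val θ cs (tilt θ L p g) - val θ cs p) (gauss κ) :=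
    hi.sub (integrable_const _)
  have hi2 : Integrable (fun g => (val θ cs (tilt θ L p g) - val θ cs p) ^ 2) (gauss κ) := by
    refine (integrable_len2_sq.const_mul (θ ^ 2)).mono'
      (hi'.aestronglyMeasurable.pow 2) (.of_forall fun g => ?_)
    rw [Real.norm_eq_abs, ← sq_abs θ, ← mul_pow, abs_pow]
    exact pow_le_pow_left₀ (abs_nonneg _) (val_tilt_diff_le cs hc L hL hp g) 2
  rw [e]
  exact abs_le_of_sq_le_sq ((sq_integral_le' hi' hi2).trans (val_tilt_sq_le cs hc L hL hθ p hp))
    (by positivity)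

theorem UnitRows.perm {cs cs' : List (ι → κ → ℝ)} (h : UnitRows cs) (hp : cs.Perm cs') :
    UnitRows cs' := fun L hL => h L (hp.mem_iff.2 hL)

theorem val_perm {cs cs' : List (ι → κ → ℝ)} (h : cs.Perm cs') :
    UnitRows cs → ∀ p : ι → ℝ, (∀ i, 0 < p i) → val θ cs p = val θ cs' p := by
  induction h with
  | nil => exact fun _ _ _ => rfl
  | cons L _ ih =>
    intro hu p hp
    exact integral_congr_ae (.of_forall fun g => ih hu.tail.2 _ (tilt_pos L hp g))
  | @swap L M cs =>
    intro hu p hp
    obtain ⟨hM, hu'⟩ := hu.tail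
    obtain ⟨hL, hu''⟩ := hu'.tail
    have hm : Measurable fun z : (κ → ℝ) × (κ → ℝ) =>
        val θ cs (tilt θ L (tilt θ M p z.1) z.2) := by
      refine measurable_val cs (measurable_tilt L (q := fun g => tilt θ M p g) ?_)
      refine measurable_pi_iff.2 fun i => Continuous.measurable ?_
      unfold tilt f1; fun_prop
    have hi : Integrable (Function.uncurry fun g h => val θ cs (tilt θ L (tilt θ M p g) h))
        ((gauss κ).prod (gauss κ)) := by
      refine ((((integrable_const (cs.length * crude θ κ + |Real.log (∑ i, p i)|)).add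
        ((integrable_len2.const_mul |θ|).comp_fst (gauss κ)))).add
        ((integrable_len2.const_mul |θ|).comp_snd (gauss κ))).mono' hm.aestronglyMeasurable
        (.of_forall fun z => ?_)
      rw [Real.norm_eq_abs, Pi.add_apply, Pi.add_apply]
      have hpos := tilt_pos (θ := θ) M hp z.1
      have h1 := (abs_sub_le _ _ _).trans (add_le_add
        (val_bound (θ := θ) cs hu'' _ (tilt_pos (θ := θ) L hpos z.2))
        (log_tilt_bound (θ := θ) L hL hpos z.2))
      have h2 := log_tilt_bound (θ := θ) M hM hp z.1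
      simp only [Function.uncurry]
      linarith [abs_sub_abs_le_abs_sub (val θ cs (tilt θ L (tilt θ M p z.1) z.2))
        (Real.log (∑ i, tilt θ M p z.1 i)),
        abs_sub_abs_le_abs_sub (Real.log (∑ i, tilt θ M p z.1 i)) (Real.log (∑ i, p i))]
    simp only [val]
    rw [integral_integral_swap hi]
    refine integral_congr_ae (.of_forall fun h => integral_congr_ae (.of_forall fun g => ?_))
    refine congrArg (val θ cs) (funext fun i => ?_)
    simp only [tilt]; ring
  | @trans l₁ l₂ l₃ h12 h23 ih1 ih2 =>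
    intro hu p hp
    exact (ih1 hu p hp).trans (ih2 (hu.perm h12) p hp)

/-- The interpolated constraint. -/
noncomputable def mixRow (b : κ → Bool) (L : ι → κ → ℝ) (u : ℝ) : ι → κ → ℝ :=
  fun i k => cu b u k * L i k

theorem mixRow_unit {b : κ → Bool} {L : ι → κ → ℝ}
    (hb : ∀ i, ∀ c : Bool, ∑ k, (if b k = c then L i k ^ 2 else 0) = 1) {u : ℝ}
    (hu : u ∈ Icc (0 : ℝ) 1) (i : ι) : ∑ k, mixRow b L u i k ^ 2 = 1 := by
  have : ∀ k, mixRow b L u i k ^ 2 = u * (if b k = true then L i k ^ 2 else 0) +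
      (1 - u) * (if b k = false then L i k ^ 2 else 0) := fun k => by
    unfold mixRow cu
    cases b k <;> simp [mul_pow, Real.sq_sqrt hu.1, Real.sq_sqrt (sub_nonneg.2 hu.2)]
  simp only [this, Finset.sum_add_distrib, ← Finset.mul_sum, hb i, mul_one]
  ring

/-- The one-constraint splitting inequality, with the constraint at any position. -/
theorem val_mix {b : κ → Bool} {L : ι → κ → ℝ}
    (hb : ∀ i, ∀ c : Bool, ∑ k, (if b k = c then L i k ^ 2 else 0) = 1) (hθ : |θ| ≤ 1 / 5000)
    {u : ℝ} (hu : u ∈ Icc (0 : ℝ) 1) :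
    ∀ cs : List (ι → κ → ℝ), UnitRows cs → ∀ p : ι → ℝ, (∀ i, 0 < p i) →
      u * val θ (mixRow b L 1 :: cs) p + (1 - u) * val θ (mixRow b L 0 :: cs) p ≤
        val θ (mixRow b L u :: cs) p := by
  have h01 : (0 : ℝ) ∈ Icc (0 : ℝ) 1 := left_mem_Icc.2 zero_le_one
  have h11 : (1 : ℝ) ∈ Icc (0 : ℝ) 1 := right_mem_Icc.2 zero_le_one
  intro cs
  induction cs with
  | nil =>
    intro _ p hp
    set Z := ∑ i, p i with hZdef
    have hZ : 0 < Z := Finset.sum_pos (fun i _ => hp i) Finset.univ_nonempty
    set p' := fun i => p i / Z with hp'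
    have hp'0 : ∀ i, 0 < p' i := fun i => div_pos (hp i) hZ
    have hp'1 : ∑ i, p' i = 1 := by
      simp only [hp', ← Finset.sum_div, ← hZdef]; exact div_self hZ.ne'
    have hval : ∀ v ∈ Icc (0 : ℝ) 1,
        val θ [mixRow b L v] p = Real.log Z + heat b L (lf θ p') v := by
      intro v hv
      have hpt : ∀ g, val θ ([] : List (ι → κ → ℝ)) (tilt θ (mixRow b L v) p g) =
          Real.log Z + lf θ p' (fld b L v g) := by
        intro g
        have e : zf θ p' (fld b L v g) = (∑ i, tilt θ (mixRow b L v) p g i) / Z := by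
          simp only [zf, hp', tilt, fld, mixRow, Finset.sum_div]
          exact Finset.sum_congr rfl fun i _ => by ring
        simp only [val, lf, e]
        rw [Real.log_div (Finset.sum_pos (fun i _ => tilt_pos _ hp g i) Finset.univ_nonempty).ne'
          hZ.ne']
        ring
      have hi : Integrable (fun g => lf θ p' (fld b L v g)) (gauss κ) :=
        integrable_cont_polyBd ((nice_lf hp'0 hp'1).1.comp (continuous_fld b L v))
          (polyBd_comp_fld b L (nice_lf hp'0 hp'1).2 hv)
      show ∫ g, val θ ([] : List (ι → κ → ℝ)) (tilt θ (mixRow b L v) p g) ∂gauss κ = _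
      simp only [hpt]
      rw [integral_add (integrable_const _) hi]
      simp [heat]
    rw [hval 1 h11, hval 0 h01, hval u hu]
    linarith [lf_concave (θ := θ) hb hp'0 hp'1 hθ hu]
  | cons M cs ih =>
    intro hcs p hp
    obtain ⟨hM, hcs'⟩ := hcs.tail
    have hur : ∀ v ∈ Icc (0 : ℝ) 1, UnitRows (mixRow b L v :: cs) := fun v hv N hN => by
      rcases List.mem_cons.1 hN with rfl | h
      · exact mixRow_unit hb hv
      · exact hcs' N h
    have hsw : ∀ v ∈ Icc (0 : ℝ) 1, val θ (mixRow b L v :: M :: cs) p =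
        ∫ g, val θ (mixRow b L v :: cs) (tilt θ M p g) ∂gauss κ := fun v hv =>
      val_perm (List.Perm.swap M (mixRow b L v) cs) (fun N hN => by
        rcases List.mem_cons.1 hN with rfl | h
        · exact mixRow_unit hb hv
        · exact hcs N h) p hp
    have hint := fun v (hv : v ∈ Icc (0 : ℝ) 1) =>
      integrable_val_tilt (θ := θ) (mixRow b L v :: cs) (hur v hv) M hM hp
    rw [hsw 1 h11, hsw 0 h01, hsw u hu, ← integral_const_mul, ← integral_const_mul,
      ← integral_add ((hint 1 h11).const_mul u) ((hint 0 h01).const_mul (1 - u))]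
    exact integral_mono (((hint 1 h11).const_mul u).add ((hint 0 h01).const_mul (1 - u)))
      (hint u hu) fun g => ih hcs' _ (tilt_pos M hp g)

/-- Binomial averaging. -/
noncomputable def bin (u : ℝ) : ℕ → (ℕ → ℝ) → ℝ
  | 0, φ => φ 0
  | M + 1, φ => bin u M fun B => u * φ (B + 1) + (1 - u) * φ B

theorem bin_mono {u : ℝ} (hu : u ∈ Icc (0 : ℝ) 1) : ∀ (M : ℕ) (φ ψ : ℕ → ℝ),
    (∀ B ≤ M, φ B ≤ ψ B) → bin u M φ ≤ bin u M ψ := by
  intro M
  induction M with
  | zero => intro φ ψ h; exact h 0 le_rfl
  | succ M ih =>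
    intro φ ψ h
    exact ih _ _ fun B hB => add_le_add (mul_le_mul_of_nonneg_left (h _ (by omega)) hu.1)
      (mul_le_mul_of_nonneg_left (h _ (by omega)) (sub_nonneg.2 hu.2))

theorem bin_quad (u : ℝ) : ∀ (M : ℕ) (c0 c1 c2 : ℝ),
    bin u M (fun B => c0 + c1 * B + c2 * (B : ℝ) ^ 2) =
      c0 + c1 * (M * u) + c2 * (M * u * (1 - u) + (M : ℝ) ^ 2 * u ^ 2) := by
  intro M
  induction M with
  | zero => intro c0 c1 c2; simp [bin]
  | succ M ih =>
    intro c0 c1 c2
    have e : (fun B : ℕ => u * (c0 + c1 * ((B + 1 : ℕ) : ℝ) + c2 * ((B + 1 : ℕ) : ℝ) ^ 2) +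
        (1 - u) * (c0 + c1 * (B : ℝ) + c2 * (B : ℝ) ^ 2)) =
        fun B : ℕ => (c0 + u * c1 + u * c2) + (c1 + 2 * u * c2) * (B : ℝ) + c2 * (B : ℝ) ^ 2 := by
      funext B; push_cast; ring
    simp only [bin, e, ih]
    push_cast; ring

theorem bin_integral (u : ℝ) : ∀ (M : ℕ) (F : ℕ → (κ → ℝ) → ℝ),
    (∀ B ≤ M, Integrable (F B) (gauss κ)) →
    Integrable (fun g => bin u M fun B => F B g) (gauss κ) ∧
      ∫ g, (bin u M fun B => F B g) ∂gauss κ = bin u M (fun B => ∫ g, F B g ∂gauss κ) := by
  intro M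
  induction M with
  | zero => intro F hF; exact ⟨hF 0 le_rfl, rfl⟩
  | succ M ih =>
    intro F hF
    have hF' : ∀ B ≤ M,
        Integrable (fun g => u * F (B + 1) g + (1 - u) * F B g) (gauss κ) := fun B hB =>
      ((hF _ (by omega)).const_mul u).add ((hF _ (by omega)).const_mul (1 - u))
    obtain ⟨h1, h2⟩ := ih (fun B g => u * F (B + 1) g + (1 - u) * F B g) hF'
    refine ⟨h1, ?_⟩
    simp only [bin]
    rw [h2]
    have key : ∀ (M' : ℕ) (φ ψ : ℕ → ℝ), (∀ B ≤ M', φ B = ψ B) → bin u M' φ = bin u M' ψ := by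
      intro M'
      induction M' with
      | zero => intro φ ψ h; exact h 0 le_rfl
      | succ M' ih' =>
        intro φ ψ h
        exact ih' _ _ fun B hB => by rw [h B (by omega), h (B + 1) (by omega)]
    refine key M _ _ fun B hB => ?_
    rw [integral_add ((hF _ (by omega)).const_mul u) ((hF _ (by omega)).const_mul (1 - u)),
      integral_const_mul, integral_const_mul]

/-- Splitting all constraints. -/
theorem val_split {b : κ → Bool} {L : ι → κ → ℝ}
    (hb : ∀ i, ∀ c : Bool, ∑ k, (if b k = c then L i k ^ 2 else 0) = 1) (hθ : |θ| ≤ 1 / 5000)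
    {u : ℝ} (hu : u ∈ Icc (0 : ℝ) 1) : ∀ (M : ℕ) (p : ι → ℝ), (∀ i, 0 < p i) →
      bin u M (fun B => val θ (List.replicate B (mixRow b L 1) ++
        List.replicate (M - B) (mixRow b L 0)) p) ≤
      val θ (List.replicate M (mixRow b L u)) p := by
  have h01 : (0 : ℝ) ∈ Icc (0 : ℝ) 1 := left_mem_Icc.2 zero_le_one
  have h11 : (1 : ℝ) ∈ Icc (0 : ℝ) 1 := right_mem_Icc.2 zero_le_one
  intro M
  induction M with
  | zero => intro p _; simp [bin]
  | succ M ih =>
    intro p hp
    set cs := fun B => List.replicate B (mixRow b L 1) ++ List.replicate (M - B) (mixRow b L 0)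
      with hcs
    have hur : ∀ B, UnitRows (cs B) := fun B N hN => by
      rcases List.mem_append.1 hN with h | h
      · rw [List.eq_of_mem_replicate h]; exact mixRow_unit hb h11
      · rw [List.eq_of_mem_replicate h]; exact mixRow_unit hb h01
    have hur' : UnitRows (List.replicate M (mixRow b L u)) := fun N hN => by
      rw [List.eq_of_mem_replicate hN]; exact mixRow_unit hb hu
    have hFu := mixRow_unit hb hu
    obtain ⟨hI, hE⟩ := bin_integral (κ := κ) u M
      (fun B g => val θ (cs B) (tilt θ (mixRow b L u) p g))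
      (fun B _ => integrable_val_tilt (cs B) (hur B) _ hFu hp)
    rw [List.replicate_succ]
    refine le_trans ?_ (integral_mono hI (integrable_val_tilt _ hur' _ hFu hp)
      fun g => ih _ (tilt_pos _ hp g))
    rw [hE]
    simp only [bin]
    refine bin_mono hu M _ _ fun B hB => ?_
    refine le_trans (le_of_eq ?_) (val_mix (θ := θ) hb hθ hu (cs B) (hur B) p hp)
    have e1 : val θ (List.replicate (B + 1) (mixRow b L 1) ++
        List.replicate (M + 1 - (B + 1)) (mixRow b L 0)) p =
        val θ (mixRow b L 1 :: cs B) p := by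
      rw [Nat.add_sub_add_right, List.replicate_succ, List.cons_append]
    have e2 : val θ (List.replicate B (mixRow b L 1) ++
        List.replicate (M + 1 - B) (mixRow b L 0)) p = val θ (mixRow b L 0 :: cs B) p := by
      refine (val_perm (θ := θ) ?_ (fun N hN => ?_) p hp).symm
      · rw [hcs, Nat.sub_add_comm hB, List.replicate_succ]
        exact List.perm_middle.symm
      · rcases List.mem_cons.1 hN with rfl | h
        · exact mixRow_unit hb h01
        · exact hur B N h
    rw [e1, e2]

end Vale.Agent.P166.Wishart
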