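import Vale.Agent.P166.Wishart.Field

/-! Concavity of the expected log-sum along covariance segments, for small tilt. -/

open MeasureTheory ProbabilityTheory Filter Topology Set

namespace Vale.Agent.P166.Wishart

open Vale.Agent.P146 (PolyBd gauss)

variable {ι κ : Type*} [Fintype ι] [DecidableEq ι] [Nonempty ι] [Fintype κ]

/-- Exponential of a small square. -/
noncomputable def ex (x : ℝ) : ℝ := Real.exp (x ^ 2 / 64)

theorem one_le_ex (x : ℝ) : 1 ≤ ex x := Real.one_le_exp (by positivity)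

theorem sq_le_ex (x : ℝ) : x ^ 2 ≤ 64 * ex x := by
  have := Real.add_one_le_exp (x ^ 2 / 64)
  unfold ex; linarith

theorem f1_le_ex {θ : ℝ} (hθ : |θ| ≤ 1 / 64) (x : ℝ) : f1 θ x ≤ ex x := by
  refine Real.exp_le_exp.2 ?_
  have := (abs_le.1 hθ).1
  nlinarith [sq_nonneg x]

theorem inv_f1_le_ex {θ : ℝ} (hθ : |θ| ≤ 1 / 64) (x : ℝ) : Real.exp (θ * x ^ 2) ≤ ex x := by
  refine Real.exp_le_exp.2 ?_
  have := (abs_le.1 hθ).2
  nlinarith [sq_nonneg x]

theorem exp_abs_le_ex {θ : ℝ} (hθ : |θ| ≤ 1 / 64) (x : ℝ) :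
    Real.exp (|θ| * x ^ 2) ≤ ex x := by
  refine Real.exp_le_exp.2 ?_
  nlinarith [sq_nonneg x]

/-- The weighted power of `ex`. -/
noncomputable def pex (p : ι → ℝ) (n : ℕ) (x : ι → ℝ) : ℝ := ∑ i, p i * ex (x i) ^ n

variable {θ : ℝ} {p : ι → ℝ}

omit [DecidableEq ι] [Nonempty ι] in
theorem one_le_pex (hp : ∀ i, 0 < p i) (h1 : ∑ i, p i = 1) (n : ℕ) (x : ι → ℝ) :
    1 ≤ pex p n x := by
  rw [← h1]
  exact Finset.sum_le_sum fun i _ => le_mul_of_one_le_right (hp i).le (one_le_pow₀ (one_le_ex _))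

omit [DecidableEq ι] [Nonempty ι] in
theorem pex_mono (hp : ∀ i, 0 < p i) {m n : ℕ} (h : m ≤ n) (x : ι → ℝ) :
    pex p m x ≤ pex p n x :=
  Finset.sum_le_sum fun i _ =>
    mul_le_mul_of_nonneg_left (pow_le_pow_right₀ (one_le_ex _) h) (hp i).le

omit [DecidableEq ι] [Nonempty ι] in
theorem pex_pow_le (hp : ∀ i, 0 < p i) (h1 : ∑ i, p i = 1) (m n : ℕ) (x : ι → ℝ) :
    pex p m x ^ n ≤ pex p (m * n) x := by
  have := Real.pow_arith_mean_le_arith_mean_pow Finset.univ p (fun i => ex (x i) ^ m)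
    (fun i _ => (hp i).le) h1 (fun i _ => pow_nonneg (Real.exp_pos _).le m) n
  simpa [pex, pow_mul] using this

omit [DecidableEq ι] in
theorem log_zf_le (hp : ∀ i, 0 < p i) (h1 : ∑ i, p i = 1) (hθ : |θ| ≤ 1 / 64) (x : ι → ℝ) :
    |lf θ p x| ≤ 64 * |θ| * pex p 2 x ∧ zf θ p x ≤ pex p 1 x ∧
      (zf θ p x)⁻¹ ≤ pex p 1 x := by
  have hz := zf_pos (θ := θ) hp x
  have hzle : zf θ p x ≤ pex p 1 x := Finset.sum_le_sum fun i _ => by
    rw [pow_one]; exact mul_le_mul_of_nonneg_left (f1_le_ex hθ _) (hp i).le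
  have hinv : (zf θ p x)⁻¹ ≤ pex p 1 x := by
    set a := ∑ i, p i * Real.exp (θ * x i ^ 2) with ha
    have hale : a ≤ pex p 1 x := Finset.sum_le_sum fun i _ => by
      rw [pow_one]; exact mul_le_mul_of_nonneg_left (inv_f1_le_ex hθ _) (hp i).le
    have hcs := Finset.sum_mul_sq_le_sq_mul_sq Finset.univ
      (fun i => Real.sqrt (p i * f1 θ (x i))) (fun i => Real.sqrt (p i * Real.exp (θ * x i ^ 2)))
    have hf : ∀ i, 0 ≤ p i * f1 θ (x i) := fun i => mul_nonneg (hp i).le (Real.exp_pos _).le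
    have hg : ∀ i, 0 ≤ p i * Real.exp (θ * x i ^ 2) := fun i =>
      mul_nonneg (hp i).le (Real.exp_pos _).le
    have e1 : ∀ i, Real.sqrt (p i * f1 θ (x i)) * Real.sqrt (p i * Real.exp (θ * x i ^ 2)) = p i := by
      intro i
      rw [← Real.sqrt_mul (hf i),
        show p i * f1 θ (x i) * (p i * Real.exp (θ * x i ^ 2)) =
          p i ^ 2 * (Real.exp (-θ * x i ^ 2) * Real.exp (θ * x i ^ 2)) by simp only [f1]; ring,
        ← Real.exp_add, show -θ * x i ^ 2 + θ * x i ^ 2 = 0 by ring, Real.exp_zero, mul_one,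
        Real.sqrt_sq (hp i).le]
    simp only [e1, h1, one_pow, fun i => Real.sq_sqrt (hf i),
      fun i => Real.sq_sqrt (hg i)] at hcs
    rw [inv_le_iff_one_le_mul₀ hz, mul_comm]
    exact hcs.trans (mul_le_mul_of_nonneg_left hale hz.le)
  refine ⟨?_, hzle, hinv⟩
  rw [abs_le]
  constructor
  · have hlow : -(∑ i, p i * (|θ| * x i ^ 2)) ≤ lf θ p x := by
      set m := ∑ i, p i * (|θ| * x i ^ 2) with hm
      rw [lf, Real.le_log_iff_exp_le hz]
      calc Real.exp (-m) = Real.exp (-m) * ∑ i, p i * (1 + (m - |θ| * x i ^ 2)) := by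
            simp only [mul_add, mul_sub, mul_one, Finset.sum_add_distrib, Finset.sum_sub_distrib,
              ← Finset.sum_mul, h1, one_mul, ← hm, sub_self, add_zero]
        _ ≤ Real.exp (-m) * ∑ i, p i * Real.exp (m - |θ| * x i ^ 2) := by
            refine mul_le_mul_of_nonneg_left (Finset.sum_le_sum fun i _ =>
              mul_le_mul_of_nonneg_left ?_ (hp i).le) (Real.exp_pos _).le
            linarith [Real.add_one_le_exp (m - |θ| * x i ^ 2)]
        _ ≤ _ := by
            rw [Finset.mul_sum]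
            refine Finset.sum_le_sum fun i _ => ?_
            rw [mul_left_comm, ← Real.exp_add]
            refine mul_le_mul_of_nonneg_left (Real.exp_le_exp.2 ?_) (hp i).le
            nlinarith [le_abs_self θ, sq_nonneg (x i)]
    have : ∑ i, p i * (|θ| * x i ^ 2) ≤ 64 * |θ| * pex p 2 x := by
      rw [pex, Finset.mul_sum]
      refine Finset.sum_le_sum fun i _ => ?_
      have := (sq_le_ex (x i)).trans (mul_le_mul_of_nonneg_left
        (le_self_pow₀ (one_le_ex (x i)) two_ne_zero) (by norm_num : (0 : ℝ) ≤ 64))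
      nlinarith [mul_nonneg (hp i).le (abs_nonneg θ)]
    linarith
  · refine (Real.log_le_sub_one_of_pos hz).trans ?_
    rw [pex, Finset.mul_sum, zf, ← h1, ← Finset.sum_sub_distrib]
    refine Finset.sum_le_sum fun i _ => ?_
    have he := Real.add_one_le_exp (-(-θ * x i ^ 2))
    rw [Real.exp_neg] at he
    have hb : f1 θ (x i) - 1 ≤ |θ| * x i ^ 2 * ex (x i) := by
      have h := Real.add_one_le_exp (-θ * x i ^ 2 * -1)
      rcases le_or_gt (-θ * x i ^ 2) 0 with hle | hgt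
      · have : f1 θ (x i) ≤ 1 := Real.exp_le_one_iff.2 hle
        have : 0 ≤ |θ| * x i ^ 2 * ex (x i) := by
          have := one_le_ex (x i); positivity
        linarith
      · have h2 : f1 θ (x i) - 1 ≤ -θ * x i ^ 2 * f1 θ (x i) := by
          have hpos := Real.exp_pos (-θ * x i ^ 2)
          have := mul_le_mul_of_nonneg_left h hpos.le
          rw [← Real.exp_add, show -θ * x i ^ 2 + -θ * x i ^ 2 * -1 = 0 by ring,
            Real.exp_zero] at this
          unfold f1; linarith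
        refine h2.trans (mul_le_mul ?_ (f1_le_ex hθ _) (Real.exp_pos _).le (by positivity))
        nlinarith [neg_le_abs θ, sq_nonneg (x i)]
    have h3 : |θ| * x i ^ 2 * ex (x i) ≤ 64 * |θ| * ex (x i) ^ 2 := by
      have := mul_le_mul_of_nonneg_right (sq_le_ex (x i))
        (mul_nonneg (abs_nonneg θ) (zero_le_one.trans (one_le_ex (x i))))
      nlinarith
    nlinarith [mul_le_mul_of_nonneg_left (hb.trans h3) (hp i).le]

theorem amgm3 {a b c : ℝ} (ha : 0 ≤ a) (hb : 0 ≤ b) (hc : 0 ≤ c) :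
    a * b * c ≤ (a ^ 3 + b ^ 3 + c ^ 3) / 3 := by
  nlinarith [mul_nonneg (add_nonneg (add_nonneg ha hb) hc) (sq_nonneg (a - b)),
    mul_nonneg (add_nonneg (add_nonneg ha hb) hc) (sq_nonneg (b - c)),
    mul_nonneg (add_nonneg (add_nonneg ha hb) hc) (sq_nonneg (c - a))]

theorem dd_bound {t di dj Ei Ej T : ℝ} (ht : 0 ≤ t) (hi : |di - 1| ≤ 128 * t * Ei)
    (hj : |dj| ≤ 3 * Ej) (hj1 : |dj - 1| ≤ 128 * t * Ej) (hij : Ei * Ej ≤ T) (hjT : Ej ≤ T) :
    |di * dj - 1| ≤ 512 * t * T := by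
  rw [show di * dj - 1 = (di - 1) * dj + (dj - 1) by ring]
  refine (abs_add_le _ _).trans ?_
  rw [abs_mul]
  have a1 := mul_le_mul hi hj (abs_nonneg _) ((abs_nonneg _).trans hi)
  have a3 := mul_le_mul_of_nonneg_left hij ht
  have a4 := mul_le_mul_of_nonneg_left hjT ht
  nlinarith

theorem exp_sub_one_abs (Y : ℝ) : |Real.exp Y - 1| ≤ |Y| * Real.exp |Y| := by
  rcases le_total 0 Y with h | h
  · rw [abs_of_nonneg h, abs_of_nonneg (by linarith [Real.one_le_exp h])]
    have := mul_le_mul_of_nonneg_left (Real.add_one_le_exp (-Y)) (Real.exp_pos Y).le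
    rw [← Real.exp_add, add_neg_cancel, Real.exp_zero] at this
    linarith
  · rw [abs_of_nonpos h, abs_of_nonpos (by linarith [Real.exp_le_one_iff.2 h])]
    nlinarith [Real.add_one_le_exp Y, Real.one_le_exp (neg_nonneg.2 h)]

theorem ratio_bound {t Y d T : ℝ} (ht : 0 ≤ t) (hT : 0 ≤ T) (hY : |Y| ≤ 256 * t * T)
    (he : Real.exp |Y| ≤ T) (hd : |d - 1| ≤ 512 * t * T) :
    |Real.exp Y * d - 1| ≤ 768 * t * T ^ 2 := by
  rw [show Real.exp Y * d - 1 = Real.exp Y * (d - 1) + (Real.exp Y - 1) by ring]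
  refine (abs_add_le _ _).trans ?_
  rw [abs_mul, Real.abs_exp]
  have b1 := mul_le_mul ((Real.exp_le_exp.2 (le_abs_self Y)).trans he) hd (abs_nonneg _) hT
  have b2 := (exp_sub_one_abs Y).trans
    (mul_le_mul hY he (Real.exp_pos _).le ((abs_nonneg _).trans hY))
  nlinarith

theorem t3_pack {q Ei Ej P Q : ℝ} (hq : 0 ≤ q) (hj : 1 ≤ Ej) (hPQ : P ^ 9 ≤ Q) (hP : 0 ≤ P) :
    q * (Ei * Ej * P) * (3 * Ei) * (64 * P ^ 2) ≤ q * (64 * (Ei ^ 6 + Ej ^ 6 + Q)) := by
  have h := amgm3 (sq_nonneg Ei) (zero_le_one.trans hj) (pow_nonneg hP 3)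
  have h6 : Ej ^ 3 ≤ Ej ^ 6 := pow_le_pow_right₀ hj (by norm_num)
  have e1 : (Ei ^ 2) ^ 3 = Ei ^ 6 := by ring
  have e2 : (P ^ 3) ^ 3 = P ^ 9 := by ring
  rw [e1, e2] at h
  calc q * (Ei * Ej * P) * (3 * Ei) * (64 * P ^ 2) = q * (192 * (Ei ^ 2 * Ej * P ^ 3)) := by ring
    _ ≤ _ := mul_le_mul_of_nonneg_left (by linarith) hq

/-- The bound dominating the corrections for one pair. -/
noncomputable def pairBd (p : ι → ℝ) (i j : ι) (x : ι → ℝ) : ℝ :=
  ex (x i) ^ 6 + ex (x j) ^ 6 + pex p 18 x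

omit [DecidableEq ι] in
theorem d_abs_le (hθ : |θ| ≤ 1 / 64) (x : ℝ) :
    |1 - 2 * θ * x ^ 2| ≤ 3 * ex x ∧ |(1 - 2 * θ * x ^ 2) - 1| ≤ 128 * |θ| * ex x := by
  have h1 := sq_le_ex x
  have h2 := one_le_ex x
  have h3 : |(1 - 2 * θ * x ^ 2) - 1| ≤ 128 * |θ| * ex x := by
    rw [show (1 - 2 * θ * x ^ 2) - 1 = -(2 * θ * x ^ 2) by ring, abs_neg, abs_mul,
      abs_mul, abs_two, abs_of_nonneg (sq_nonneg x)]
    nlinarith [abs_nonneg θ]
  refine ⟨?_, h3⟩
  have := abs_sub_abs_le_abs_sub (1 - 2 * θ * x ^ 2) 1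
  rw [abs_one] at this
  nlinarith [mul_le_mul_of_nonneg_right hθ (zero_le_one.trans h2)]

theorem exp_two_abs_log_le (hp : ∀ i, 0 < p i) (h1 : ∑ i, p i = 1) (hθ : |θ| ≤ 1 / 64)
    (x : ι → ℝ) : Real.exp (2 * |lf θ p x|) ≤ pex p 2 x := by
  obtain ⟨-, hzu, hzl⟩ := log_zf_le (θ := θ) hp h1 hθ x
  have hz := zf_pos (θ := θ) hp x
  have hsq : pex p 1 x ^ 2 ≤ pex p 2 x := pex_pow_le hp h1 1 2 x
  have e : Real.exp (lf θ p x) = zf θ p x := by rw [lf, Real.exp_log hz]
  rcases abs_choice (lf θ p x) with h | h <;> rw [h, two_mul, Real.exp_add, ← sq]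
  · rw [e]
    exact (pow_le_pow_left₀ hz.le hzu 2).trans hsq
  · rw [Real.exp_neg, e]
    exact (pow_le_pow_left₀ (inv_nonneg.2 hz.le) hzl 2).trans hsq

/-- The exponent of the pair ratio. -/
noncomputable def pairY (θ : ℝ) (p : ι → ℝ) (i j : ι) (x : ι → ℝ) : ℝ :=
  -θ * x i ^ 2 + -θ * x j ^ 2 - 2 * lf θ p x

theorem wf_mul_eq (hp : ∀ i, 0 < p i) (i j : ι) (x : ι → ℝ) :
    wf θ p i x * wf θ p j x = p i * p j * Real.exp (pairY θ p i j x) := by
  have hz := zf_pos (θ := θ) hp x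
  rw [pairY, Real.exp_sub, Real.exp_add, two_mul, Real.exp_add, lf, Real.exp_log hz]
  simp only [wf, f1]
  field_simp

theorem pairY_abs_le (i j : ι) (x : ι → ℝ) :
    |pairY θ p i j x| ≤ |θ| * x i ^ 2 + |θ| * x j ^ 2 + 2 * |lf θ p x| := by
  unfold pairY
  refine (abs_sub _ _).trans (add_le_add ((abs_add_le _ _).trans (le_of_eq ?_)) (le_of_eq ?_))
  · simp [abs_mul]
  · simp [abs_mul]

theorem pairY_exp_le (hp : ∀ i, 0 < p i) (h1 : ∑ i, p i = 1) (hθ : |θ| ≤ 1 / 64) (i j : ι)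
    (x : ι → ℝ) :
    Real.exp |pairY θ p i j x| ≤ ex (x i) * ex (x j) * pex p 2 x := by
  refine (Real.exp_le_exp.2 (pairY_abs_le i j x)).trans ?_
  rw [Real.exp_add, Real.exp_add]
  exact mul_le_mul (mul_le_mul (exp_abs_le_ex hθ _) (exp_abs_le_ex hθ _) (Real.exp_pos _).le
    (zero_le_one.trans (one_le_ex _))) (exp_two_abs_log_le hp h1 hθ x) (Real.exp_pos _).le
    (mul_nonneg (zero_le_one.trans (one_le_ex _)) (zero_le_one.trans (one_le_ex _)))

theorem Y_bound {t xi xj l Ei Ej P : ℝ} (ht : 0 ≤ t) (hi : xi ≤ 64 * Ei) (hj : xj ≤ 64 * Ej)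
    (hl : l ≤ 64 * t * P) (h1 : 1 ≤ Ei) (h2 : 1 ≤ Ej) (h3 : 1 ≤ P) :
    t * xi + t * xj + 2 * l ≤ 256 * t * (Ei * Ej * P) := by
  have e1 : Ei ≤ Ei * Ej * P := (le_mul_of_one_le_right (by linarith) h2).trans
    (le_mul_of_one_le_right (by positivity) h3)
  have e2 : Ej ≤ Ei * Ej * P := (le_mul_of_one_le_left (by linarith) h1).trans
    (le_mul_of_one_le_right (by positivity) h3)
  have e3 : P ≤ Ei * Ej * P :=
    le_mul_of_one_le_left (by linarith) (one_le_mul_of_one_le_of_one_le h1 h2)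
  have a1 := mul_le_mul_of_nonneg_left hi ht
  have a2 := mul_le_mul_of_nonneg_left hj ht
  have b1 := mul_le_mul_of_nonneg_left e1 ht
  have b2 := mul_le_mul_of_nonneg_left e2 ht
  have b3 := mul_le_mul_of_nonneg_left e3 ht
  linarith

theorem t2_pack {Ei Ej P Q : ℝ} (hP : P ^ 6 ≤ Q) :
    (Ei * Ej * P) ^ 2 ≤ (Ei ^ 6 + Ej ^ 6 + Q) / 3 := by
  have h := amgm3 (sq_nonneg Ei) (sq_nonneg Ej) (sq_nonneg P)
  have e1 : (Ei ^ 2) ^ 3 = Ei ^ 6 := by ring
  have e2 : (Ej ^ 2) ^ 3 = Ej ^ 6 := by ring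
  have e3 : (P ^ 2) ^ 3 = P ^ 6 := by ring
  rw [e1, e2, e3] at h
  calc (Ei * Ej * P) ^ 2 = Ei ^ 2 * Ej ^ 2 * P ^ 2 := by ring
    _ ≤ (Ei ^ 6 + Ej ^ 6 + P ^ 6) / 3 := h
    _ ≤ _ := by linarith

theorem pair_estimate_diag (hp : ∀ i, 0 < p i) (h1 : ∑ i, p i = 1) (hθ : |θ| ≤ 1 / 64) (i j : ι)
    (x : ι → ℝ) :
    p i * p j * (1 - 256 * |θ| * pairBd p i j x) ≤ df θ p i x * df θ p j x := by
  set Y := pairY θ p i j x with hYdef
  set T := ex (x i) * ex (x j) * pex p 2 x with hTdef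
  have hE1 := one_le_ex (x i)
  have hE2 := one_le_ex (x j)
  have hP1 := one_le_pex hp h1 2 x
  have hY : |Y| ≤ 256 * |θ| * T := (pairY_abs_le i j x).trans
    (Y_bound (abs_nonneg θ) (sq_le_ex _) (sq_le_ex _) (log_zf_le hp h1 hθ x).1 hE1 hE2 hP1)
  have hdd := dd_bound (T := T) (abs_nonneg θ) (d_abs_le hθ (x i)).2 (d_abs_le hθ (x j)).1
    (d_abs_le hθ (x j)).2 (le_mul_of_one_le_right (by positivity) hP1)
    ((le_mul_of_one_le_left (by linarith) hE1).trans (le_mul_of_one_le_right (by positivity) hP1))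
  have hall := ratio_bound (abs_nonneg θ) (by positivity) hY (pairY_exp_le hp h1 hθ i j x) hdd
  have hprod : T ^ 2 ≤ pairBd p i j x / 3 :=
    t2_pack ((pex_pow_le hp h1 2 6 x).trans (pex_mono hp (by norm_num) x))
  have e : df θ p i x * df θ p j x = p i * p j *
      (Real.exp Y * ((1 - 2 * θ * x i ^ 2) * (1 - 2 * θ * x j ^ 2))) := by
    rw [← mul_assoc (p i * p j), ← wf_mul_eq hp i j x]
    simp only [df]; ring
  rw [e]
  refine mul_le_mul_of_nonneg_left ?_ (mul_nonneg (hp i).le (hp j).le)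
  have h2 := (abs_le.1 hall).1
  have h3 := mul_le_mul_of_nonneg_left hprod (abs_nonneg θ)
  linarith

theorem mean_sq_le (hp : ∀ i, 0 < p i) (h1 : ∑ i, p i = 1) (hθ : |θ| ≤ 1 / 64) (x : ι → ℝ) :
    ∑ l, wf θ p l x * x l ^ 2 ≤ 64 * pex p 2 x ^ 2 := by
  have hz := zf_pos (θ := θ) hp x
  obtain ⟨-, -, hzl⟩ := log_zf_le (θ := θ) hp h1 hθ x
  calc ∑ l, wf θ p l x * x l ^ 2 ≤ ∑ l, p l * ex (x l) * (zf θ p x)⁻¹ * (64 * ex (x l)) := by
        refine Finset.sum_le_sum fun l _ => mul_le_mul ?_ (sq_le_ex _) (sq_nonneg _) ?_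
        · rw [wf, div_eq_mul_inv]
          exact mul_le_mul_of_nonneg_right
            (mul_le_mul_of_nonneg_left (f1_le_ex hθ _) (hp l).le) (inv_nonneg.2 hz.le)
        · exact mul_nonneg (mul_nonneg (hp l).le (zero_le_one.trans (one_le_ex _)))
            (inv_nonneg.2 hz.le)
    _ = 64 * ((zf θ p x)⁻¹ * pex p 2 x) := by
        rw [pex, Finset.mul_sum, Finset.mul_sum]
        exact Finset.sum_congr rfl fun l _ => by ring
    _ ≤ _ := by
        rw [sq]
        refine mul_le_mul_of_nonneg_left (mul_le_mul_of_nonneg_right ?_ ?_) (by norm_num)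
        · exact hzl.trans (pex_mono hp (by norm_num) x)
        · exact zero_le_one.trans (one_le_pex hp h1 2 x)

theorem pair_estimate_cross (hp : ∀ i, 0 < p i) (h1 : ∑ i, p i = 1) (hθ : |θ| ≤ 1 / 64) (i j : ι)
    (x : ι → ℝ) :
    wf θ p i x * wf θ p j x * |1 - 2 * θ * x i ^ 2| * ∑ l, wf θ p l x * x l ^ 2 ≤
      p i * p j * (64 * pairBd p i j x) := by
  have hww : wf θ p i x * wf θ p j x ≤ p i * p j * (ex (x i) * ex (x j) * pex p 2 x) := by
    rw [wf_mul_eq hp i j x]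
    exact mul_le_mul_of_nonneg_left
      ((Real.exp_le_exp.2 (le_abs_self _)).trans (pairY_exp_le hp h1 hθ i j x))
      (mul_nonneg (hp i).le (hp j).le)
  have hpp : 0 ≤ p i * p j * (ex (x i) * ex (x j) * pex p 2 x) :=
    (mul_nonneg (wf_nonneg hp i x) (wf_nonneg hp j x)).trans hww
  refine (mul_le_mul (mul_le_mul hww (d_abs_le hθ (x i)).1 (abs_nonneg _) hpp)
    (mean_sq_le hp h1 hθ x)
    (Finset.sum_nonneg fun l _ => mul_nonneg (wf_nonneg hp l x) (sq_nonneg _))
    (mul_nonneg hpp (mul_nonneg (by norm_num) (zero_le_one.trans (one_le_ex _))))).trans ?_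
  exact t3_pack (mul_nonneg (hp i).le (hp j).le) (one_le_ex _) (pex_pow_le hp h1 2 9 x)
    (zero_le_one.trans (one_le_pex hp h1 2 x))

/-- Gaussian exponential moment of a square, at rate at most `3/8`. -/
theorem integral_exp_sq {c : ℝ} (h0 : 0 ≤ c) (hc : c ≤ 3 / 8) (a : κ → ℝ) (ha : ∑ k, a k ^ 2 = 1) :
    Integrable (fun g => Real.exp (c * (∑ k, a k * g k) ^ 2)) (gauss κ) ∧
      ∫ g, Real.exp (c * (∑ k, a k * g k) ^ 2) ∂gauss κ ≤ 2 := by
  have hden : (0 : ℝ) < 1 / 2 - c := by linarith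
  have hpdf : ∀ z : ℝ, gaussianPDFReal 0 1 z * Real.exp (c * z ^ 2) =
      (√(2 * Real.pi))⁻¹ * Real.exp (-(1 / 2 - c) * z ^ 2) := by
    intro z
    rw [gaussianPDFReal, mul_assoc, ← Real.exp_add]
    simp only [NNReal.coe_one, mul_one, sub_zero]
    congr 2
    ring
  have hi1 : Integrable (fun z : ℝ => Real.exp (c * z ^ 2)) (gaussianReal 0 1) := by
    rw [gaussianReal_of_var_ne_zero _ one_ne_zero,
      integrable_withDensity_iff_integrable_smul' (measurable_gaussianPDF _ _)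
        (Eventually.of_forall fun _ => gaussianPDF_lt_top)]
    simp only [toReal_gaussianPDF, smul_eq_mul, hpdf]
    exact (integrable_exp_neg_mul_sq hden).const_mul _
  have hz : ∫ z, Real.exp (c * z ^ 2) ∂gaussianReal 0 1 ≤ 2 := by
    rw [integral_gaussianReal_eq_integral_smul one_ne_zero]
    simp only [smul_eq_mul, hpdf]
    rw [integral_const_mul, integral_gaussian]
    rw [inv_mul_le_iff₀ (by positivity), Real.sqrt_le_iff]
    refine ⟨by positivity, ?_⟩
    rw [mul_pow, Real.sq_sqrt (by positivity), div_le_iff₀ hden]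
    nlinarith [Real.pi_pos, mul_le_mul_of_nonneg_left hc Real.pi_pos.le]
  have key : ∀ y : ℝ, ∫ z, Real.exp (√(2 * c) * y * z) ∂gaussianReal 0 1 = Real.exp (c * y ^ 2) := by
    intro y
    have h := congrFun (mgf_id_gaussianReal (μ := (0 : ℝ)) (v := 1)) (√(2 * c) * y)
    simp only [mgf, id_eq, zero_mul, NNReal.coe_one, one_mul, zero_add] at h
    rw [h]
    congr 1
    rw [mul_pow, Real.sq_sqrt (by positivity)]
    ring
  have hlin : ∀ z : ℝ, Integrable (fun g : κ → ℝ => Real.exp (√(2 * c) * (∑ k, a k * g k) * z))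
        (gauss κ) ∧
      ∫ g, Real.exp (√(2 * c) * (∑ k, a k * g k) * z) ∂gauss κ = Real.exp (c * z ^ 2) := by
    intro z
    have e : ∀ g : κ → ℝ, Real.exp (√(2 * c) * (∑ k, a k * g k) * z) =
        ∏ k, Real.exp (√(2 * c) * z * a k * g k) := fun g => by
      rw [← Real.exp_sum, Finset.mul_sum, Finset.sum_mul]
      exact congrArg _ (Finset.sum_congr rfl fun k _ => by ring)
    simp only [e, gauss]
    constructor
    · exact Integrable.fintype_prod (f := fun k x => Real.exp (√(2 * c) * z * a k * x))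
        fun k => integrable_exp_mul_gaussianReal _
    · rw [integral_fintype_prod_eq_prod fun k x => Real.exp (√(2 * c) * z * a k * x)]
      have : ∀ k, ∫ x, Real.exp (√(2 * c) * z * a k * x) ∂gaussianReal 0 1 =
          Real.exp (c * z ^ 2 * a k ^ 2) := fun k => by
        have h := congrFun (mgf_id_gaussianReal (μ := (0 : ℝ)) (v := 1)) (√(2 * c) * z * a k)
        simp only [mgf, id_eq, zero_mul, NNReal.coe_one, one_mul, zero_add] at h
        rw [h]; congr 1
        rw [mul_pow, mul_pow, Real.sq_sqrt (by positivity)]; ring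
      rw [Finset.prod_congr rfl fun k _ => this k, ← Real.exp_sum, ← Finset.mul_sum, ha, mul_one]
  have hjoint : Integrable (Function.uncurry fun (g : κ → ℝ) z =>
      Real.exp (√(2 * c) * (∑ k, a k * g k) * z)) ((gauss κ).prod (gaussianReal 0 1)) := by
    refine (integrable_prod_iff' (Continuous.aestronglyMeasurable (by fun_prop))).2
      ⟨.of_forall fun z => (hlin z).1, ?_⟩
    simp only [Function.uncurry, Real.norm_eq_abs, Real.abs_exp, (hlin _).2]
    exact hi1
  constructor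
  · refine hjoint.integral_prod_left.congr (.of_forall fun g => ?_)
    simp only [Function.uncurry, key]
  · simp only [← key]
    rw [integral_integral_swap hjoint]
    simp only [(hlin _).2]
    exact hz

/-- The averaged quadratic form along the segment is nonnegative. -/
theorem trace_mean_nonneg {L : ι → κ → ℝ} {b : κ → Bool} {u : ℝ}
    (hL : ∀ i, ∑ k, (cu b u k * L i k) ^ 2 = 1) (hu : u ∈ Icc (0 : ℝ) 1)
    (hp : ∀ i, 0 < p i) (h1 : ∑ i, p i = 1) (hθ : |θ| ≤ 1 / 5000)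
    (A : ι → ι → ℝ) :
    0 ≤ ∫ g, (t2 A θ p (fld b L u g) + 8 * θ * t3 A θ p (fld b L u g) +
      12 * θ ^ 2 * qf A θ p (fld b L u g) ^ 2) ∂gauss κ := by
  set S := fld b L u
  set W := fun i j => A i j ^ 2 * (p i * p j)
  have hθ' : |θ| ≤ 1 / 64 := hθ.trans (by norm_num)
  have hpt : ∀ g, ∑ i, ∑ j, W i j * (1 - (256 + 8 * 64) * |θ| * pairBd p i j (S g)) ≤
      t2 A θ p (S g) + 8 * θ * t3 A θ p (S g) + 12 * θ ^ 2 * qf A θ p (S g) ^ 2 := by
    intro g
    set x := S g
    have h3 : |t3 A θ p x| ≤ ∑ i, ∑ j, W i j * (64 * pairBd p i j x) := by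
      refine (Finset.abs_sum_le_sum_abs _ _).trans (Finset.sum_le_sum fun i _ => ?_)
      rw [df, abs_mul, abs_mul, abs_of_nonneg (wf_nonneg hp i x), abs_of_nonneg (sq_nonneg (∑ j, A i j * vf θ p j x))]
      have hcs : (∑ j, A i j * vf θ p j x) ^ 2 ≤
          (∑ j, A i j ^ 2 * wf θ p j x) * ∑ l, wf θ p l x * x l ^ 2 := by
        refine Finset.sum_sq_le_sum_mul_sum_of_sq_le_mul Finset.univ
          (fun j _ => mul_nonneg (sq_nonneg _) (wf_nonneg hp j x))
          (fun j _ => mul_nonneg (wf_nonneg hp j x) (sq_nonneg _)) fun j _ => ?_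
        simp only [vf]
        exact le_of_eq (by ring)
      refine (mul_le_mul_of_nonneg_left hcs (mul_nonneg (wf_nonneg hp i x) (abs_nonneg _))).trans ?_
      rw [Finset.sum_mul, Finset.mul_sum]
      refine Finset.sum_le_sum fun j _ => ?_
      have := mul_le_mul_of_nonneg_left (pair_estimate_cross (θ := θ) hp h1 hθ' i j x)
        (sq_nonneg (A i j))
      simp only [W]
      linarith
    have h2 : ∑ i, ∑ j, W i j * (1 - 256 * |θ| * pairBd p i j x) ≤ t2 A θ p x :=
      Finset.sum_le_sum fun i _ => Finset.sum_le_sum fun j _ => by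
        have := mul_le_mul_of_nonneg_left (pair_estimate_diag (θ := θ) hp h1 hθ' i j x)
          (sq_nonneg (A i j))
        simp only [W]
        linarith
    have h4 : -(8 * |θ| * ∑ i, ∑ j, W i j * (64 * pairBd p i j x)) ≤ 8 * θ * t3 A θ p x := by
      have := mul_le_mul_of_nonneg_left h3 (by positivity : (0 : ℝ) ≤ 8 * |θ|)
      have h5 : |8 * θ * t3 A θ p x| = 8 * |θ| * |t3 A θ p x| := by
        rw [abs_mul, abs_mul]; norm_num
      linarith [neg_abs_le (8 * θ * t3 A θ p x)]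
    have e : ∑ i, ∑ j, W i j * (1 - (256 + 8 * 64) * |θ| * pairBd p i j x) =
        (∑ i, ∑ j, W i j * (1 - 256 * |θ| * pairBd p i j x)) -
          8 * |θ| * ∑ i, ∑ j, W i j * (64 * pairBd p i j x) := by
      simp only [Finset.mul_sum, ← Finset.sum_sub_distrib]
      exact Finset.sum_congr rfl fun i _ => Finset.sum_congr rfl fun j _ => by ring
    rw [e]
    nlinarith [sq_nonneg θ, sq_nonneg (qf A θ p x), mul_nonneg (sq_nonneg θ) (sq_nonneg (qf A θ p x))]
  have hS : ∀ i, ∀ n : ℕ, n ≤ 24 → Integrable (fun g => ex (S g i) ^ n) (gauss κ) ∧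
      ∫ g, ex (S g i) ^ n ∂gauss κ ≤ 2 := by
    intro i n hn
    have h := integral_exp_sq (c := (n : ℝ) / 64) (by positivity) (by
      rw [div_le_iff₀ (by norm_num : (0 : ℝ) < 64)]
      have : (n : ℝ) ≤ 24 := by exact_mod_cast hn
      linarith) (fun k => cu b u k * L i k) (hL i)
    have e : ∀ g, ex (S g i) ^ n = Real.exp ((n : ℝ) / 64 * (∑ k, cu b u k * L i k * g k) ^ 2) := by
      intro g
      rw [ex, ← Real.exp_nat_mul]
      congr 1
      change (n : ℝ) * ((∑ k, cu b u k * L i k * g k) ^ 2 / 64) = _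
      ring
    simp only [e]
    exact h
  have hB : ∀ i j, Integrable (fun g => pairBd p i j (S g)) (gauss κ) ∧
      ∫ g, pairBd p i j (S g) ∂gauss κ ≤ 6 := by
    intro i j
    have iP : Integrable (fun g => pex p 18 (S g)) (gauss κ) :=
      integrable_finsetSum _ fun l _ => ((hS l 18 (by norm_num)).1).const_mul _
    have hP : ∫ g, pex p 18 (S g) ∂gauss κ ≤ 2 := by
      simp only [pex]
      rw [integral_finsetSum _ fun l _ => ((hS l 18 (by norm_num)).1).const_mul _]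
      simp only [integral_const_mul]
      calc ∑ l, p l * ∫ g, ex (S g l) ^ 18 ∂gauss κ ≤ ∑ l, p l * 2 :=
            Finset.sum_le_sum fun l _ =>
              mul_le_mul_of_nonneg_left (hS l 18 (by norm_num)).2 (hp l).le
        _ = 2 := by rw [← Finset.sum_mul, h1, one_mul]
    have ii := (hS i 6 (by norm_num)).1
    have jj := (hS j 6 (by norm_num)).1
    refine ⟨(ii.add jj).add iP, ?_⟩
    simp only [pairBd]
    rw [integral_add (f := fun g => ex (S g i) ^ 6 + ex (S g j) ^ 6) (ii.add jj) iP,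
      integral_add ii jj]
    linarith [(hS i 6 (by norm_num)).2, (hS j 6 (by norm_num)).2]
  have iL : Integrable
      (fun g => ∑ i, ∑ j, W i j * (1 - (256 + 8 * 64) * |θ| * pairBd p i j (S g))) (gauss κ) :=
    integrable_finsetSum _ fun i _ => integrable_finsetSum _ fun j _ =>
      ((integrable_const _).sub ((hB i j).1.const_mul _)).const_mul _
  have hnice : Nice fun x => t2 A θ p x + 8 * θ * t3 A θ p x + 12 * θ ^ 2 * qf A θ p x ^ 2 := by
    have ht2 : Nice (t2 A θ p) := Nice.sum _ fun i _ => Nice.sum _ fun j _ =>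
      ((Nice.const (A i j ^ 2)).mul (nice_df hp i)).mul (nice_df hp j)
    have ht3 : Nice (t3 A θ p) := Nice.sum _ fun i _ => by
      have hu := Nice.sum Finset.univ fun j (_ : j ∈ Finset.univ) =>
        (Nice.const (A i j)).mul (nice_vf (θ := θ) hp j)
      simpa [sq] using (nice_df (θ := θ) hp i).mul (hu.mul hu)
    have h := (ht2.add ((Nice.const (8 * θ)).mul ht3)).add
      ((Nice.const (12 * θ ^ 2)).mul ((nice_qf (θ := θ) hp A).mul (nice_qf (θ := θ) hp A)))
    simpa [sq] using h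
  have iR := integrable_cont_polyBd (hnice.1.comp (continuous_fld b L u))
    (polyBd_comp_fld b L hnice.2 hu)
  refine le_trans ?_ (integral_mono iL iR hpt)
  have hW : ∀ i j, Integrable
      (fun g => W i j * (1 - (256 + 8 * 64) * |θ| * pairBd p i j (S g))) (gauss κ) := fun i j =>
    ((integrable_const (1 : ℝ)).sub ((hB i j).1.const_mul _)).const_mul _
  rw [integral_finsetSum _ fun i _ => integrable_finsetSum _ fun j _ => hW i j]
  refine Finset.sum_nonneg fun i _ => ?_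
  rw [integral_finsetSum _ fun j _ => hW i j]
  refine Finset.sum_nonneg fun j _ => ?_
  rw [integral_const_mul, integral_sub (f := fun _ => (1 : ℝ))
    (g := fun g => (256 + 8 * 64) * |θ| * pairBd p i j (S g)) (integrable_const _)
    ((hB i j).1.const_mul _),
    integral_const_mul, integral_const, probReal_univ, one_smul]
  refine mul_nonneg (mul_nonneg (sq_nonneg _) (mul_nonneg (hp i).le (hp j).le)) ?_
  nlinarith [mul_le_mul_of_nonneg_left (hB i j).2 (abs_nonneg θ)]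

/-- Concavity along the segment: the interpolated log-sum is above its endpoint chord. -/
theorem lf_concave {L : ι → κ → ℝ} {b : κ → Bool}
    (hb : ∀ i, ∀ c : Bool, ∑ k, (if b k = c then L i k ^ 2 else 0) = 1)
    (hp : ∀ i, 0 < p i) (h1 : ∑ i, p i = 1) (hθ : |θ| ≤ 1 / 5000)
    {u : ℝ} (hu : u ∈ Icc (0 : ℝ) 1) :
    u * heat b L (lf θ p) 1 + (1 - u) * heat b L (lf θ p) 0 ≤ heat b L (lf θ p) u := by
  set A := covDiff b L with hA
  have hs : ∀ i j, A i j = A j i := fun i j => by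
    simp only [hA, covDiff, mul_comm (L i _)]
  have hd : ∀ i, A i i = 0 := fun i => by
    have h1' := hb i true
    have h2' := hb i false
    simp only [hA, covDiff]
    have : ∀ k, (if b k then (1 : ℝ) else -1) * (L i k * L i k) =
        (if b k = true then L i k ^ 2 else 0) - (if b k = false then L i k ^ 2 else 0) := fun k => by
      cases b k <;> simp [sq]
    simp only [this, Finset.sum_sub_distrib, h1', h2', sub_self]
  have hnorm : ∀ v ∈ Icc (0 : ℝ) 1, ∀ i, ∑ k, (cu b v k * L i k) ^ 2 = 1 := by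
    intro v hv i
    have : ∀ k, (cu b v k * L i k) ^ 2 = v * (if b k = true then L i k ^ 2 else 0) +
        (1 - v) * (if b k = false then L i k ^ 2 else 0) := fun k => by
      unfold cu
      cases b k <;> simp [mul_pow, Real.sq_sqrt hv.1, Real.sq_sqrt (sub_nonneg.2 hv.2)]
    simp only [this, Finset.sum_add_distrib, ← Finset.mul_sum, hb i, mul_one]
    ring
  set G := heat b L (lf θ p)
  set Q := heat b L (qf A θ p)
  have hlf := nice_lf (θ := θ) hp h1
  have hv1 : ∀ i, Nice fun x => -2 * θ * vf θ p i x := fun i =>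
    (Nice.const (-2 * θ)).mul (nice_vf hp i)
  have hv2 : ∀ i j, Nice fun x => -2 * θ * jf θ p i j x := fun i j =>
    (Nice.const (-2 * θ)).mul (nice_jf hp i j)
  have hG : ∀ v ∈ Ioo (0 : ℝ) 1, HasDerivAt G (-(2 * θ ^ 2) * Q v) v := by
    intro v hv
    have h := hasDerivAt_heat b L (F1 := fun i x => -2 * θ * vf θ p i x)
      (F2 := fun i j x => -2 * θ * jf θ p i j x) (hd_lf hp)
      (fun i c c' t hc => ((hd_vf hp i c c' t hc).const_mul (-2 * θ)).congr_deriv (by
        rw [Finset.mul_sum]; exact Finset.sum_congr rfl fun j _ => by ring))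
      hlf.1 (fun i => (hv1 i).1) (fun i j => (hv2 i j).1) hlf.2 (fun i => (hv1 i).2)
      (fun i j => (hv2 i j).2) hv
    refine h.congr_deriv ?_
    simp only [Q, heat, ← integral_const_mul]
    refine integral_congr_ae (.of_forall fun g => ?_)
    have ft := first_trace (θ := θ) (p := p) A hd (fld b L v g)
    have : ∑ i, ∑ j, A i j * (-2 * θ * jf θ p i j (fld b L v g)) =
        -2 * θ * (2 * θ * qf A θ p (fld b L v g)) := by
      rw [← ft, Finset.mul_sum]
      refine Finset.sum_congr rfl fun i _ => ?_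
      rw [Finset.mul_sum]
      exact Finset.sum_congr rfl fun j _ => by ring
    simp only [← hA, this]
    ring
  have hQ : ∀ v ∈ Ioo (0 : ℝ) 1, HasDerivAt Q
      (∫ g, (t2 A θ p (fld b L v g) + 8 * θ * t3 A θ p (fld b L v g) +
        12 * θ ^ 2 * qf A θ p (fld b L v g) ^ 2) ∂gauss κ) v := by
    intro v hv
    refine (hasDerivAt_heat b L (hd_qf hp A) (hd_qf1 hp A) (nice_qf hp A).1
      (fun i => (nice_qf1 hp A i).1) (fun i j => (nice_qf2 hp A i j).1) (nice_qf hp A).2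
      (fun i => (nice_qf1 hp A i).2) (fun i j => (nice_qf2 hp A i j).2) hv).congr_deriv ?_
    exact integral_congr_ae (.of_forall fun g => second_trace A hs hd _)
  have hcG : ContinuousOn G (Icc 0 1) := continuousOn_heat b L hlf.1 hlf.2
  have hconc : ConcaveOn ℝ (Icc (0 : ℝ) 1) G := by
    refine concaveOn_of_hasDerivWithinAt2_nonpos (convex_Icc 0 1) hcG
      (f' := fun v => -(2 * θ ^ 2) * Q v)
      (f'' := fun v => -(2 * θ ^ 2) * ∫ g, (t2 A θ p (fld b L v g) +
        8 * θ * t3 A θ p (fld b L v g) + 12 * θ ^ 2 * qf A θ p (fld b L v g) ^ 2) ∂gauss κ)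
      (fun v hv => ?_) (fun v hv => ?_) (fun v hv => ?_)
    all_goals rw [interior_Icc] at hv
    · exact (hG v hv).hasDerivWithinAt
    · exact ((hQ v hv).const_mul _).hasDerivWithinAt
    · exact mul_nonpos_of_nonpos_of_nonneg (by nlinarith [sq_nonneg θ])
        (trace_mean_nonneg (hnorm v (Ioo_subset_Icc_self hv)) (Ioo_subset_Icc_self hv) hp h1 hθ A)
  have h := hconc.2 (right_mem_Icc.2 zero_le_one) (left_mem_Icc.2 zero_le_one) hu.1
    (by linarith [hu.2] : (0 : ℝ) ≤ 1 - u) (by ring)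
  simpa using h

end Vale.Agent.P166.Wishart
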