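import Vale.Agent.P166.Wishart.Heat

/-! The log-sum of quadratic exponentials and its derivatives. -/

open MeasureTheory ProbabilityTheory Filter Topology Set

namespace Vale.Agent.P166.Wishart

open Vale.Agent.P146 (PolyBd gauss)

variable {ι : Type*} [Fintype ι] [DecidableEq ι] [Nonempty ι]

/-- Single weight. -/
noncomputable def f1 (θ x : ℝ) : ℝ := Real.exp (-θ * x ^ 2)

/-- Normalisation. -/
noncomputable def zf (θ : ℝ) (p : ι → ℝ) (x : ι → ℝ) : ℝ := ∑ i, p i * f1 θ (x i)

/-- The log-sum. -/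
noncomputable def lf (θ : ℝ) (p : ι → ℝ) (x : ι → ℝ) : ℝ := Real.log (zf θ p x)

/-- The Gibbs weights. -/
noncomputable def wf (θ : ℝ) (p : ι → ℝ) (i : ι) (x : ι → ℝ) : ℝ := p i * f1 θ (x i) / zf θ p x

/-- The tilted mean field. -/
noncomputable def vf (θ : ℝ) (p : ι → ℝ) (i : ι) (x : ι → ℝ) : ℝ := wf θ p i x * x i

/-- The diagonal part of the Jacobian of `vf`. -/
noncomputable def df (θ : ℝ) (p : ι → ℝ) (i : ι) (x : ι → ℝ) : ℝ :=
  wf θ p i x * (1 - 2 * θ * x i ^ 2)

/-- The diagonal derivative of `df`. -/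
noncomputable def ef (θ : ℝ) (p : ι → ℝ) (i : ι) (x : ι → ℝ) : ℝ :=
  -4 * θ * x i * wf θ p i x + (1 - 2 * θ * x i ^ 2) * (-2 * θ * x i * wf θ p i x)

/-- The Jacobian of `vf`. -/
noncomputable def jf (θ : ℝ) (p : ι → ℝ) (i k : ι) (x : ι → ℝ) : ℝ :=
  (if i = k then df θ p i x else 0) + 2 * θ * vf θ p i x * vf θ p k x

/-- The second derivatives of `vf`. -/
noncomputable def kf (θ : ℝ) (p : ι → ℝ) (i k l : ι) (x : ι → ℝ) : ℝ :=
  (if i = k then (if i = l then ef θ p i x else 0) + 2 * θ * df θ p i x * vf θ p l x else 0) +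
    2 * θ * (jf θ p i l x * vf θ p k x + vf θ p i x * jf θ p k l x)

variable {θ : ℝ} {p : ι → ℝ}

omit [DecidableEq ι] in
theorem zf_pos (hp : ∀ i, 0 < p i) (x : ι → ℝ) : 0 < zf θ p x :=
  Finset.sum_pos (fun i _ => mul_pos (hp i) (Real.exp_pos _)) Finset.univ_nonempty

omit [DecidableEq ι] in
theorem hd_lf (hp : ∀ i, 0 < p i) : HD (lf θ p) (fun i x => -2 * θ * vf θ p i x) := by
  intro c c' t hc
  have hz : HasDerivAt (fun u => zf θ p (c u))
      (∑ i, p i * (f1 θ (c t i) * (-θ * (2 * c t i * c' i)))) t := by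
    refine HasDerivAt.fun_sum fun i _ => HasDerivAt.const_mul _ ?_
    refine (((hc i).fun_pow 2).const_mul (-θ)).exp.congr_deriv ?_
    simp [f1]
  refine (hz.log (zf_pos hp _).ne').congr_deriv ?_
  rw [Finset.sum_div]
  refine Finset.sum_congr rfl fun i _ => ?_
  simp only [vf, wf]
  ring

omit [DecidableEq ι] in
theorem hd_wf_aux (hp : ∀ i, 0 < p i) (i : ι) (c : ℝ → ι → ℝ) (c' : ι → ℝ) (t : ℝ)
    (hc : ∀ i, HasDerivAt (fun u => c u i) (c' i) t) :
    HasDerivAt (fun u => wf θ p i (c u))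
      (wf θ p i (c t) * (-2 * θ * c t i * c' i + 2 * θ * ∑ k, vf θ p k (c t) * c' k)) t := by
  have hz : HasDerivAt (fun u => zf θ p (c u))
      (∑ i, p i * (f1 θ (c t i) * (-θ * (2 * c t i * c' i)))) t := by
    refine HasDerivAt.fun_sum fun i _ => HasDerivAt.const_mul _ ?_
    refine (((hc i).fun_pow 2).const_mul (-θ)).exp.congr_deriv ?_
    simp [f1]
  have hn : HasDerivAt (fun u => p i * f1 θ (c u i))
      (p i * (f1 θ (c t i) * (-θ * (2 * c t i * c' i)))) t := by
    refine HasDerivAt.const_mul _ ?_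
    refine (((hc i).fun_pow 2).const_mul (-θ)).exp.congr_deriv ?_
    simp [f1]
  refine (hn.fun_div hz (zf_pos hp _).ne').congr_deriv ?_
  have hne := (zf_pos (θ := θ) hp (c t)).ne'
  have e : ∑ k, vf θ p k (c t) * c' k =
      (∑ k, p k * (f1 θ (c t k) * (c t k * c' k))) / zf θ p (c t) := by
    rw [Finset.sum_div]
    exact Finset.sum_congr rfl fun k _ => by simp only [vf, wf]; ring
  have e2 : ∑ k, p k * (f1 θ (c t k) * (-θ * (2 * c t k * c' k))) =
      -2 * θ * ∑ k, p k * (f1 θ (c t k) * (c t k * c' k)) := by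
    rw [Finset.mul_sum]
    exact Finset.sum_congr rfl fun k _ => by ring
  rw [e, e2]
  simp only [wf]
  field_simp
  ring

theorem hd_vf (hp : ∀ i, 0 < p i) (i : ι) : HD (vf θ p i) (fun k x => jf θ p i k x) := by
  intro c c' t hc
  refine ((hd_wf_aux hp i c c' t hc).fun_mul (hc i)).congr_deriv ?_
  simp only [jf, df, add_mul, Finset.sum_add_distrib, ite_mul, zero_mul, Finset.sum_ite_eq,
    Finset.mem_univ, if_true]
  have e : ∑ k, 2 * θ * vf θ p i (c t) * vf θ p k (c t) * c' k =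
      2 * θ * vf θ p i (c t) * ∑ k, vf θ p k (c t) * c' k := by
    rw [Finset.mul_sum]; exact Finset.sum_congr rfl fun k _ => by ring
  rw [e]
  simp only [vf]
  ring

theorem hd_df (hp : ∀ i, 0 < p i) (i : ι) :
    HD (df θ p i) (fun l x => (if i = l then ef θ p i x else 0) +
      2 * θ * df θ p i x * vf θ p l x) := by
  intro c c' t hc
  refine ((hd_wf_aux hp i c c' t hc).fun_mul
    ((((hc i).fun_pow 2).const_mul (2 * θ)).const_sub 1)).congr_deriv ?_
  simp only [ef, add_mul, Finset.sum_add_distrib, ite_mul, zero_mul, Finset.sum_ite_eq,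
    Finset.mem_univ, if_true]
  have e : ∑ k, 2 * θ * df θ p i (c t) * vf θ p k (c t) * c' k =
      2 * θ * df θ p i (c t) * ∑ k, vf θ p k (c t) * c' k := by
    rw [Finset.mul_sum]; exact Finset.sum_congr rfl fun k _ => by ring
  rw [e]
  simp only [df]
  push_cast
  ring

theorem hd_jf (hp : ∀ i, 0 < p i) (i k : ι) : HD (jf θ p i k) (fun l x => kf θ p i k l x) := by
  intro c c' t hc
  have h1 := (hd_vf (θ := θ) hp i) c c' t hc
  have h2 := (hd_vf (θ := θ) hp k) c c' t hc
  have hv := (h1.fun_mul h2).const_mul (2 * θ)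
  by_cases h : i = k
  · subst h
    have h3 := (hd_df (θ := θ) hp i) c c' t hc
    have hfun : (fun u => jf θ p i i (c u)) =
        fun u => df θ p i (c u) + 2 * θ * (vf θ p i (c u) * vf θ p i (c u)) := by
      funext u; simp only [jf, if_pos]; ring
    rw [hfun]
    refine (h3.fun_add hv).congr_deriv ?_
    simp only [kf, if_pos, Finset.mul_sum, Finset.sum_mul, ← Finset.sum_add_distrib]
    exact Finset.sum_congr rfl fun l _ => by ring
  · have hfun : (fun u => jf θ p i k (c u)) =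
        fun u => 2 * θ * (vf θ p i (c u) * vf θ p k (c u)) := by
      funext u; simp only [jf, if_neg h]; ring
    rw [hfun]
    refine hv.congr_deriv ?_
    simp only [kf, if_neg h, Finset.mul_sum, Finset.sum_mul, ← Finset.sum_add_distrib]
    exact Finset.sum_congr rfl fun l _ => by ring

/-- Continuous with polynomial growth. -/
def Nice {κ : Type*} [Fintype κ] (f : (κ → ℝ) → ℝ) : Prop := Continuous f ∧ PolyBd f

omit [DecidableEq ι] [Nonempty ι] in
theorem Nice.const (c : ℝ) : Nice (fun _ : ι → ℝ => c) := ⟨continuous_const, PolyBd.const c⟩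

omit [DecidableEq ι] [Nonempty ι] in
theorem Nice.add {f g : (ι → ℝ) → ℝ} (hf : Nice f) (hg : Nice g) : Nice fun x => f x + g x :=
  ⟨hf.1.add hg.1, hf.2.add hg.2⟩

omit [DecidableEq ι] [Nonempty ι] in
theorem Nice.mul {f g : (ι → ℝ) → ℝ} (hf : Nice f) (hg : Nice g) : Nice fun x => f x * g x :=
  ⟨hf.1.mul hg.1, hf.2.mul hg.2⟩

omit [DecidableEq ι] [Nonempty ι] in
theorem Nice.coord (i : ι) : Nice fun x : ι → ℝ => x i :=
  ⟨continuous_apply i, polyBd_coord i⟩

omit [DecidableEq ι] [Nonempty ι] in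
theorem Nice.sum {α : Type*} (s : Finset α) {f : α → (ι → ℝ) → ℝ} (hf : ∀ a ∈ s, Nice (f a)) :
    Nice fun x => ∑ a ∈ s, f a x :=
  ⟨continuous_finsetSum _ fun a ha => (hf a ha).1, polyBd_sum s fun a ha => (hf a ha).2⟩

omit [DecidableEq ι] [Nonempty ι] in
theorem Nice.sub {f g : (ι → ℝ) → ℝ} (hf : Nice f) (hg : Nice g) : Nice fun x => f x - g x := by
  simpa [sub_eq_add_neg] using hf.add ((Nice.const (-1)).mul hg)

omit [DecidableEq ι] in
theorem continuous_zf : Continuous (zf θ p) := by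
  unfold zf f1; fun_prop

omit [DecidableEq ι] in
theorem wf_nonneg (hp : ∀ i, 0 < p i) (i : ι) (x : ι → ℝ) : 0 ≤ wf θ p i x :=
  div_nonneg (mul_nonneg (hp i).le (Real.exp_pos _).le) (zf_pos hp x).le

omit [DecidableEq ι] in
theorem wf_sum (hp : ∀ i, 0 < p i) (x : ι → ℝ) : ∑ i, wf θ p i x = 1 := by
  unfold wf
  rw [← Finset.sum_div]
  exact div_self (zf_pos hp x).ne'

omit [DecidableEq ι] in
theorem wf_le_one (hp : ∀ i, 0 < p i) (i : ι) (x : ι → ℝ) : wf θ p i x ≤ 1 := by
  rw [← wf_sum (θ := θ) hp x]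
  exact Finset.single_le_sum (fun j _ => wf_nonneg hp j x) (Finset.mem_univ i)

omit [DecidableEq ι] in
theorem nice_wf (hp : ∀ i, 0 < p i) (i : ι) : Nice (wf θ p i) := by
  refine ⟨?_, 1, 0, fun x => ?_⟩
  · refine Continuous.div ?_ continuous_zf fun x => (zf_pos hp x).ne'
    unfold f1; fun_prop
  · rw [pow_zero, mul_one, abs_of_nonneg (wf_nonneg hp i x)]
    exact wf_le_one hp i x

omit [DecidableEq ι] in
theorem nice_vf (hp : ∀ i, 0 < p i) (i : ι) : Nice (vf θ p i) := (nice_wf hp i).mul (Nice.coord i)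

omit [DecidableEq ι] in
theorem nice_df (hp : ∀ i, 0 < p i) (i : ι) : Nice (df θ p i) := by
  have h := (nice_wf (θ := θ) hp i).mul
    ((Nice.const 1).sub ((Nice.const (2 * θ)).mul ((Nice.coord i).mul (Nice.coord i))))
  refine (congrArg Nice (funext fun x => ?_)).mp h
  simp [df, sq]

omit [DecidableEq ι] in
theorem nice_ef (hp : ∀ i, 0 < p i) (i : ι) : Nice (ef θ p i) := by
  have hw := nice_wf (θ := θ) hp i
  have h := (((Nice.const (-4 * θ)).mul (Nice.coord i)).mul hw).add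
    (((Nice.const 1).sub ((Nice.const (2 * θ)).mul ((Nice.coord i).mul (Nice.coord i)))).mul
      (((Nice.const (-2 * θ)).mul (Nice.coord i)).mul hw))
  refine (congrArg Nice (funext fun x => ?_)).mp h
  simp [ef, sq]

theorem nice_jf (hp : ∀ i, 0 < p i) (i k : ι) : Nice (jf θ p i k) := by
  have hv := ((Nice.const (2 * θ)).mul (nice_vf (θ := θ) hp i)).mul (nice_vf (θ := θ) hp k)
  unfold jf
  by_cases h : i = k
  · simp only [if_pos h]; exact (nice_df hp i).add hv
  · simp only [if_neg h]; exact (Nice.const 0).add hv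

theorem nice_kf (hp : ∀ i, 0 < p i) (i k l : ι) : Nice (kf θ p i k l) := by
  have hr := (Nice.const (2 * θ)).mul
    (((nice_jf (θ := θ) hp i l).mul (nice_vf (θ := θ) hp k)).add
      ((nice_vf (θ := θ) hp i).mul (nice_jf (θ := θ) hp k l)))
  have hd := ((Nice.const (2 * θ)).mul (nice_df (θ := θ) hp i)).mul (nice_vf (θ := θ) hp l)
  unfold kf
  by_cases h : i = k
  · simp only [if_pos h]
    by_cases h' : i = l
    · simp only [if_pos h']; exact ((nice_ef hp i).add hd).add hr
    · simp only [if_neg h']; exact ((Nice.const 0).add hd).add hr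
  · simp only [if_neg h]; exact (Nice.const 0).add hr

omit [DecidableEq ι] in
theorem lf_abs_le (hp : ∀ i, 0 < p i) (h1 : ∑ i, p i = 1) (x : ι → ℝ) :
    |lf θ p x| ≤ |θ| * ∑ i, x i ^ 2 := by
  set S := ∑ i, x i ^ 2
  have hlo : Real.exp (-(|θ| * S)) ≤ zf θ p x ∧ zf θ p x ≤ Real.exp (|θ| * S) := by
    have hb : ∀ i, |-θ * x i ^ 2| ≤ |θ| * S := fun i => by
      rw [abs_mul, abs_neg, abs_of_nonneg (sq_nonneg (x i))]
      exact mul_le_mul_of_nonneg_left
        (Finset.single_le_sum (fun j _ => sq_nonneg (x j)) (Finset.mem_univ i)) (abs_nonneg θ)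
    constructor
    · calc Real.exp (-(|θ| * S)) = ∑ i, p i * Real.exp (-(|θ| * S)) := by
            rw [← Finset.sum_mul, h1, one_mul]
        _ ≤ _ := Finset.sum_le_sum fun i _ => mul_le_mul_of_nonneg_left
            (Real.exp_le_exp.2 (abs_le.1 (hb i)).1) (hp i).le
    · calc zf θ p x ≤ ∑ i, p i * Real.exp (|θ| * S) :=
            Finset.sum_le_sum fun i _ => mul_le_mul_of_nonneg_left
              (Real.exp_le_exp.2 (abs_le.1 (hb i)).2) (hp i).le
        _ = _ := by rw [← Finset.sum_mul, h1, one_mul]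
  rw [abs_le]
  constructor
  · rw [lf, Real.le_log_iff_exp_le (zf_pos hp x)]; exact hlo.1
  · rw [lf, Real.log_le_iff_le_exp (zf_pos hp x)]; exact hlo.2

omit [DecidableEq ι] in
theorem nice_lf (hp : ∀ i, 0 < p i) (h1 : ∑ i, p i = 1) : Nice (lf θ p) := by
  refine ⟨continuous_zf.log fun x => (zf_pos hp x).ne', |θ| * Fintype.card ι, 2, fun x => ?_⟩
  refine (lf_abs_le hp h1 x).trans ?_
  rw [mul_assoc]
  refine mul_le_mul_of_nonneg_left ?_ (abs_nonneg θ)
  calc ∑ i, x i ^ 2 ≤ ∑ _i : ι, (1 + ‖x‖) ^ 2 := Finset.sum_le_sum fun i _ => by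
        rw [← sq_abs (x i)]
        have h := norm_le_pi_norm x i
        rw [Real.norm_eq_abs] at h
        exact pow_le_pow_left₀ (abs_nonneg _) (by linarith) 2
    _ = _ := by simp

/-- The bilinear observable. -/
noncomputable def qf (A : ι → ι → ℝ) (θ : ℝ) (p : ι → ℝ) (x : ι → ℝ) : ℝ :=
  ∑ i, ∑ j, A i j * vf θ p i x * vf θ p j x

/-- First derivatives of `qf`. -/
noncomputable def qf1 (A : ι → ι → ℝ) (θ : ℝ) (p : ι → ℝ) (k : ι) (x : ι → ℝ) : ℝ :=
  ∑ i, ∑ j, A i j * (jf θ p i k x * vf θ p j x + vf θ p i x * jf θ p j k x)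

/-- Second derivatives of `qf`. -/
noncomputable def qf2 (A : ι → ι → ℝ) (θ : ℝ) (p : ι → ℝ) (k l : ι) (x : ι → ℝ) : ℝ :=
  ∑ i, ∑ j, A i j * (kf θ p i k l x * vf θ p j x + jf θ p i k x * jf θ p j l x +
    (jf θ p i l x * jf θ p j k x + vf θ p i x * kf θ p j k l x))

theorem hd_qf (hp : ∀ i, 0 < p i) (A : ι → ι → ℝ) : HD (qf A θ p) (qf1 A θ p) := by
  intro c c' t hc
  refine (HasDerivAt.fun_sum fun i _ => HasDerivAt.fun_sum fun j _ =>
    (((hd_vf (θ := θ) hp i) c c' t hc).const_mul (A i j)).fun_mul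
      ((hd_vf (θ := θ) hp j) c c' t hc)).congr_deriv ?_
  simp only [qf1, Finset.mul_sum, Finset.sum_mul, ← Finset.sum_add_distrib]
  rw [Finset.sum_comm (s := (Finset.univ : Finset ι)) (t := (Finset.univ : Finset ι))
    (f := fun k i => ∑ j, A i j * (jf θ p i k (c t) * vf θ p j (c t) +
      vf θ p i (c t) * jf θ p j k (c t)) * c' k)]
  refine Finset.sum_congr rfl fun i _ => ?_
  rw [Finset.sum_comm]
  exact Finset.sum_congr rfl fun j _ => Finset.sum_congr rfl fun k _ => by ring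

theorem hd_qf1 (hp : ∀ i, 0 < p i) (A : ι → ι → ℝ) (k : ι) :
    HD (qf1 A θ p k) (qf2 A θ p k) := by
  intro c c' t hc
  refine (HasDerivAt.fun_sum fun i _ => HasDerivAt.fun_sum fun j _ =>
    ((((hd_jf (θ := θ) hp i k) c c' t hc).fun_mul ((hd_vf (θ := θ) hp j) c c' t hc)).fun_add
      (((hd_vf (θ := θ) hp i) c c' t hc).fun_mul
        ((hd_jf (θ := θ) hp j k) c c' t hc))).const_mul (A i j)).congr_deriv ?_
  simp only [qf2, Finset.mul_sum, Finset.sum_mul, ← Finset.sum_add_distrib]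
  conv_rhs => rw [Finset.sum_comm]
  refine Finset.sum_congr rfl fun i _ => ?_
  rw [Finset.sum_comm]
  exact Finset.sum_congr rfl fun l _ => Finset.sum_congr rfl fun j _ => by ring

theorem nice_qf (hp : ∀ i, 0 < p i) (A : ι → ι → ℝ) : Nice (qf A θ p) :=
  Nice.sum _ fun i _ => Nice.sum _ fun j _ =>
    ((Nice.const (A i j)).mul (nice_vf hp i)).mul (nice_vf hp j)

theorem nice_qf1 (hp : ∀ i, 0 < p i) (A : ι → ι → ℝ) (k : ι) : Nice (qf1 A θ p k) :=
  Nice.sum _ fun i _ => Nice.sum _ fun j _ => (Nice.const (A i j)).mul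
    (((nice_jf hp i k).mul (nice_vf hp j)).add ((nice_vf hp i).mul (nice_jf hp j k)))

theorem nice_qf2 (hp : ∀ i, 0 < p i) (A : ι → ι → ℝ) (k l : ι) : Nice (qf2 A θ p k l) :=
  Nice.sum _ fun i _ => Nice.sum _ fun j _ => (Nice.const (A i j)).mul
    ((((nice_kf hp i k l).mul (nice_vf hp j)).add ((nice_jf hp i k).mul (nice_jf hp j l))).add
      (((nice_jf hp i l).mul (nice_jf hp j k)).add ((nice_vf hp i).mul (nice_kf hp j k l))))

/-- The pairwise second order term. -/
noncomputable def t2 (A : ι → ι → ℝ) (θ : ℝ) (p : ι → ℝ) (x : ι → ℝ) : ℝ :=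
  ∑ i, ∑ j, A i j ^ 2 * df θ p i x * df θ p j x

/-- The cross term. -/
noncomputable def t3 (A : ι → ι → ℝ) (θ : ℝ) (p : ι → ℝ) (x : ι → ℝ) : ℝ :=
  ∑ i, df θ p i x * (∑ j, A i j * vf θ p j x) ^ 2

theorem first_trace (A : ι → ι → ℝ) (hd : ∀ i, A i i = 0) (x : ι → ℝ) :
    ∑ k, ∑ l, A k l * jf θ p k l x = 2 * θ * qf A θ p x := by
  simp only [jf, qf, Finset.mul_sum, mul_add, Finset.sum_add_distrib, mul_ite, mul_zero,
    Finset.sum_ite_eq, Finset.mem_univ, if_true, hd, zero_mul, Finset.sum_const_zero, zero_add]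
  exact Finset.sum_congr rfl fun k _ => Finset.sum_congr rfl fun l _ => by ring

theorem jj_trace (A : ι → ι → ℝ) (hs : ∀ i j, A i j = A j i) (x : ι → ℝ) :
    ∑ i, ∑ l, (∑ k, jf θ p i k x * A k l) * (∑ j, A i j * jf θ p j l x) =
      t2 A θ p x + 4 * θ * t3 A θ p x + 4 * θ ^ 2 * qf A θ p x ^ 2 := by
  set D := fun i => df θ p i x with hD
  set v := fun i => vf θ p i x with hv
  set u := fun i => ∑ j, A i j * v j with hu
  have h1 : ∀ i l, ∑ k, jf θ p i k x * A k l = D i * A i l + 2 * θ * v i * u l := by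
    intro i l
    simp only [jf, add_mul, Finset.sum_add_distrib, ite_mul, zero_mul, Finset.sum_ite_eq,
      Finset.mem_univ, if_true, hu, Finset.mul_sum]
    refine congrArg₂ (· + ·) rfl (Finset.sum_congr rfl fun k _ => ?_)
    rw [hs l k]; ring
  have h2 : ∀ i l, ∑ j, A i j * jf θ p j l x = A i l * D l + 2 * θ * u i * v l := by
    intro i l
    simp only [jf, mul_add, Finset.sum_add_distrib, mul_ite, mul_zero, Finset.sum_ite_eq',
      Finset.mem_univ, if_true, hu, Finset.mul_sum, Finset.sum_mul]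
    refine congrArg₂ (· + ·) rfl (Finset.sum_congr rfl fun k _ => ?_)
    ring
  simp only [h1, h2]
  have e : ∀ i l, (D i * A i l + 2 * θ * v i * u l) * (A i l * D l + 2 * θ * u i * v l) =
      A i l ^ 2 * D i * D l + (2 * θ * (D i * u i) * (A i l * v l) +
        2 * θ * (D l * u l) * (A l i * v i)) + 4 * θ ^ 2 * ((v i * u i) * (v l * u l)) := by
    intro i l; rw [hs l i]; ring
  simp only [e, Finset.sum_add_distrib]
  rw [Finset.sum_comm (f := fun i l => 2 * θ * (D l * u l) * (A l i * v i))]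
  have hu' : ∀ i, ∑ l, A i l * v l = u i := fun i => rfl
  simp only [← Finset.mul_sum, ← Finset.sum_mul, hu']
  have hq : qf A θ p x = ∑ i, v i * u i := by
    simp only [qf, hu, hv, Finset.mul_sum]
    exact Finset.sum_congr rfl fun i _ => Finset.sum_congr rfl fun j _ => by ring
  have e3 : ∑ i, 2 * θ * (D i * u i) * u i = 2 * θ * t3 A θ p x := by
    simp only [t3, hu, hv, hD, Finset.mul_sum (a := 2 * θ)]
    exact Finset.sum_congr rfl fun i _ => by ring
  have e2 : ∑ i, ∑ l, A i l ^ 2 * D i * D l = t2 A θ p x := rfl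
  rw [e2, e3, ← hq]
  ring

theorem kv_trace (A : ι → ι → ℝ) (hs : ∀ i j, A i j = A j i) (hd : ∀ i, A i i = 0) (x : ι → ℝ) :
    ∑ k, ∑ l, A k l * ∑ i, (∑ j, A i j * vf θ p j x) * kf θ p i k l x =
      4 * θ * t3 A θ p x + 8 * θ ^ 2 * qf A θ p x ^ 2 := by
  set D := fun i => df θ p i x with hD
  set v := fun i => vf θ p i x with hv
  set u := fun i => ∑ j, A i j * v j with hu
  have hq : qf A θ p x = ∑ i, v i * u i := by
    simp only [qf, hu, hv, Finset.mul_sum]
    exact Finset.sum_congr rfl fun i _ => Finset.sum_congr rfl fun j _ => by ring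
  have e3 : t3 A θ p x = ∑ i, D i * u i * u i := by
    simp only [t3, hu, hv, hD]
    exact Finset.sum_congr rfl fun i _ => by ring
  rw [Finset.sum_congr rfl fun k _ => Finset.sum_congr rfl fun l _ => Finset.mul_sum _ _ _]
  have e : ∀ k l i, A k l * ((∑ j, A i j * vf θ p j x) * kf θ p i k l x) =
      (if i = k then (if i = l then A k l * (u i * ef θ p i x) else 0) else 0) +
      (if i = k then 2 * θ * (u i * D i) * (A k l * v l) else 0) +
      2 * θ * (u i * jf θ p i l x) * (A k l * v k) +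
      2 * θ * (u i * v i) * (A k l * jf θ p k l x) := by
    intro k l i
    simp only [kf, hu, hv, hD]
    split_ifs <;> ring
  simp only [e, Finset.sum_add_distrib, Finset.sum_ite_eq', Finset.mem_univ, if_true,
    Finset.sum_ite_eq, hd, zero_mul, Finset.sum_const_zero, zero_add]
  have a1 : ∑ k, ∑ l, 2 * θ * (u k * D k) * (A k l * v l) = 2 * θ * t3 A θ p x := by
    simp only [← Finset.mul_sum, e3]
    rw [Finset.mul_sum]
    exact Finset.sum_congr rfl fun k _ => by simp only [hu]; ring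
  have hJ : ∀ i, ∑ l, jf θ p i l x * u l = D i * u i + 2 * θ * v i * qf A θ p x := by
    intro i
    simp only [jf, add_mul, Finset.sum_add_distrib, ite_mul, zero_mul, Finset.sum_ite_eq,
      Finset.mem_univ, if_true, hq, Finset.mul_sum]
    exact congrArg₂ (· + ·) rfl (Finset.sum_congr rfl fun l _ => by simp only [hv]; ring)
  have a2 : ∑ k, ∑ l, ∑ i, 2 * θ * (u i * jf θ p i l x) * (A k l * v k) =
      2 * θ * (t3 A θ p x + 2 * θ * qf A θ p x ^ 2) := by
    rw [Finset.sum_comm]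
    have : ∀ l, ∑ k, ∑ i, 2 * θ * (u i * jf θ p i l x) * (A k l * v k) =
        ∑ i, 2 * θ * (u i * jf θ p i l x) * u l := by
      intro l
      rw [Finset.sum_comm]
      refine Finset.sum_congr rfl fun i _ => ?_
      rw [← Finset.mul_sum]
      simp only [hu]
      exact congrArg _ (Finset.sum_congr rfl fun k _ => by rw [hs k l])
    rw [Finset.sum_congr rfl fun l _ => this l, Finset.sum_comm]
    have : ∀ i, ∑ l, 2 * θ * (u i * jf θ p i l x) * u l =
        2 * θ * (D i * u i * u i + 2 * θ * qf A θ p x * (v i * u i)) := by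
      intro i
      rw [show 2 * θ * (D i * u i * u i + 2 * θ * qf A θ p x * (v i * u i)) =
        2 * θ * u i * (D i * u i + 2 * θ * v i * qf A θ p x) by ring, ← hJ i, Finset.mul_sum]
      exact Finset.sum_congr rfl fun l _ => by ring
    rw [Finset.sum_congr rfl fun i _ => this i, ← Finset.mul_sum, Finset.sum_add_distrib,
      ← Finset.mul_sum, ← e3, ← hq]
    ring
  have a3 : ∑ k, ∑ l, ∑ i, 2 * θ * (u i * v i) * (A k l * jf θ p k l x) =
      4 * θ ^ 2 * qf A θ p x ^ 2 := by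
    have : ∀ k l, ∑ i, 2 * θ * (u i * v i) * (A k l * jf θ p k l x) =
        2 * θ * qf A θ p x * (A k l * jf θ p k l x) := by
      intro k l
      rw [hq, Finset.mul_sum, Finset.sum_mul]
      exact Finset.sum_congr rfl fun i _ => by ring
    simp only [this, ← Finset.mul_sum, first_trace A hd x]
    ring
  rw [a1, a2, a3]
  ring

theorem second_trace (A : ι → ι → ℝ) (hs : ∀ i j, A i j = A j i) (hd : ∀ i, A i i = 0)
    (x : ι → ℝ) :
    (∑ k, ∑ l, A k l * qf2 A θ p k l x) / 2 =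
      t2 A θ p x + 8 * θ * t3 A θ p x + 12 * θ ^ 2 * qf A θ p x ^ 2 := by
  have h1 := jj_trace (θ := θ) (p := p) A hs x
  have h2 := kv_trace (θ := θ) (p := p) A hs hd x
  have hq : ∀ k l, qf2 A θ p k l x =
      (∑ i, (∑ j, A i j * vf θ p j x) * kf θ p i k l x) * 2 +
        (∑ i, jf θ p i k x * ∑ j, A i j * jf θ p j l x) * 2 := by
    intro k l
    have e1 : ∑ i, ∑ j, A i j * (vf θ p i x * kf θ p j k l x) =
        ∑ i, (∑ j, A i j * vf θ p j x) * kf θ p i k l x := by
      rw [Finset.sum_comm]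
      refine Finset.sum_congr rfl fun j _ => ?_
      rw [Finset.sum_mul]
      exact Finset.sum_congr rfl fun i _ => by rw [hs i j]; ring
    have e2 : ∑ i, ∑ j, A i j * (jf θ p i l x * jf θ p j k x) =
        ∑ i, jf θ p i k x * ∑ j, A i j * jf θ p j l x := by
      rw [Finset.sum_comm]
      refine Finset.sum_congr rfl fun j _ => ?_
      rw [Finset.mul_sum]
      exact Finset.sum_congr rfl fun i _ => by rw [hs i j]; ring
    have e4 : ∀ i, ∑ j, A i j * (kf θ p i k l x * vf θ p j x) =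
        (∑ j, A i j * vf θ p j x) * kf θ p i k l x := fun i => by
      rw [Finset.sum_mul]; exact Finset.sum_congr rfl fun j _ => by ring
    have e5 : ∀ i, ∑ j, A i j * (jf θ p i k x * jf θ p j l x) =
        jf θ p i k x * ∑ j, A i j * jf θ p j l x := fun i => by
      rw [Finset.mul_sum]; exact Finset.sum_congr rfl fun j _ => by ring
    simp only [qf2, mul_add, Finset.sum_add_distrib, e1, e2, e4, e5]
    ring
  have hre : ∑ k, ∑ l, A k l * ∑ i, jf θ p i k x * ∑ j, A i j * jf θ p j l x =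
      ∑ i, ∑ l, (∑ k, jf θ p i k x * A k l) * (∑ j, A i j * jf θ p j l x) := by
    rw [Finset.sum_congr rfl fun k _ => Finset.sum_congr rfl fun l _ =>
      Finset.mul_sum Finset.univ (fun i => jf θ p i k x * ∑ j, A i j * jf θ p j l x) (A k l)]
    rw [Finset.sum_comm]
    conv_rhs => rw [Finset.sum_comm]
    refine Finset.sum_congr rfl fun l _ => ?_
    rw [Finset.sum_comm]
    refine Finset.sum_congr rfl fun i _ => ?_
    rw [Finset.sum_mul]
    exact Finset.sum_congr rfl fun k _ => by ring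
  simp only [hq, mul_add, ← mul_assoc, Finset.sum_add_distrib, ← Finset.sum_mul]
  rw [hre, h1, h2]
  ring

end Vale.Agent.P166.Wishart
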