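import Vale.Agent.P146.Calc

/-! Gaussian interpolation between two orthogonal parts of a finite Gaussian vector. -/

open MeasureTheory ProbabilityTheory Filter Topology Set

namespace Vale.Agent.P166.Wishart

open Vale.Agent.P146 (PolyBd gauss)

variable {κ : Type*} [Fintype κ]

/-- Integration by parts in one coordinate. -/
theorem ibp_coord (k : κ) [DecidableEq κ] {f f' : (κ → ℝ) → ℝ} (hf : Continuous f)
    (hf' : Continuous f') (hb : PolyBd f) (hb' : PolyBd f')
    (hd : ∀ z t, HasDerivAt (fun x => f (Function.update z k x)) (f' (Function.update z k t)) t) :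
    ∫ g, g k * f g ∂gauss κ = ∫ g, f' g ∂gauss κ := by
  have hcoord : PolyBd fun g : κ → ℝ => g k := ⟨1, 1, fun g => by
    have := norm_le_pi_norm g k
    rw [Real.norm_eq_abs] at this
    linarith⟩
  have hmp := P146.measurePreserving_update (ι := κ) k
  have key : ∀ {F : (κ → ℝ) → ℝ}, Continuous F → PolyBd F →
      Integrable (fun z : ℝ × (κ → ℝ) => F (Function.update z.2 k z.1))
        ((gaussianReal 0 1).prod (gauss κ)) ∧
      ∫ g, F g ∂gauss κ = ∫ g, (∫ x, F (Function.update g k x) ∂gaussianReal 0 1) ∂gauss κ := by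
    intro F hF hFb
    have hi : Integrable (fun z : ℝ × (κ → ℝ) => F (Function.update z.2 k z.1))
        ((gaussianReal 0 1).prod (gauss κ)) :=
      hmp.integrable_comp_of_integrable (P146.integrable_of_polyBd hF.aestronglyMeasurable hFb)
    refine ⟨hi, ?_⟩
    conv_lhs => rw [← hmp.map_eq]
    rw [integral_map hmp.measurable.aemeasurable
        (by rw [hmp.map_eq]; exact hF.aestronglyMeasurable), integral_prod_symm _ hi]
  obtain ⟨i1, e1⟩ := key ((continuous_apply k).mul hf) (hcoord.mul hb)
  obtain ⟨i2, e2⟩ := key hf' hb'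
  obtain ⟨i0, -⟩ := key hf hb
  rw [e2]
  refine e1.trans (integral_congr_ae ?_)
  filter_upwards [i1.prod_left_ae, i2.prod_left_ae, i0.prod_left_ae] with g h1 h2 h0
  simp only [Pi.mul_apply, Function.update_self] at h1 ⊢
  exact P146.gauss_ibp_one (fun x => hd g x) h0 h2 h1

theorem integrable_cont_polyBd {f : (κ → ℝ) → ℝ} (hf : Continuous f) (hb : PolyBd f) :
    Integrable f (gauss κ) :=
  P146.integrable_of_polyBd hf.aestronglyMeasurable hb

variable {ι : Type*} [Fintype ι]

/-- The chain rule along curves. -/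
def HD (F : (ι → ℝ) → ℝ) (F' : ι → (ι → ℝ) → ℝ) : Prop :=
  ∀ (c : ℝ → ι → ℝ) (c' : ι → ℝ) (t : ℝ), (∀ i, HasDerivAt (fun u => c u i) (c' i) t) →
    HasDerivAt (fun u => F (c u)) (∑ i, F' i (c t) * c' i) t

/-- The interpolated linear map: weight `√u` on the coordinates with `b k`, `√(1-u)` elsewhere. -/
noncomputable def cu (b : κ → Bool) (u : ℝ) (k : κ) : ℝ :=
  if b k then √u else √(1 - u)

/-- The interpolated field. -/
noncomputable def fld (b : κ → Bool) (L : ι → κ → ℝ) (u : ℝ) (g : κ → ℝ) : ι → ℝ :=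
  fun i => ∑ k, cu b u k * L i k * g k

omit [Fintype κ] in
theorem abs_cu_le (b : κ → Bool) {u : ℝ} (hu : u ∈ Icc (0 : ℝ) 1) (k : κ) : |cu b u k| ≤ 1 := by
  unfold cu
  split_ifs <;> rw [abs_of_nonneg (Real.sqrt_nonneg _), Real.sqrt_le_one] <;>
    linarith [hu.1, hu.2]

theorem norm_fld_le (b : κ → Bool) (L : ι → κ → ℝ) :
    ∃ K : ℝ, 0 ≤ K ∧ ∀ u ∈ Icc (0 : ℝ) 1, ∀ g, 1 + ‖fld b L u g‖ ≤ K * (1 + ‖g‖) := by
  refine ⟨1 + ∑ i, ∑ k, |L i k|, by positivity, fun u hu g => ?_⟩
  have hs : 0 ≤ ∑ i, ∑ k, |L i k| := by positivity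
  have : ‖fld b L u g‖ ≤ (∑ i, ∑ k, |L i k|) * ‖g‖ := by
    refine (pi_norm_le_iff_of_nonneg (by positivity)).2 fun i => ?_
    rw [Real.norm_eq_abs, fld]
    refine (Finset.abs_sum_le_sum_abs _ _).trans ?_
    calc ∑ k, |cu b u k * L i k * g k| ≤ ∑ k, |L i k| * ‖g‖ := Finset.sum_le_sum fun k _ => by
          rw [abs_mul, abs_mul]
          have := norm_le_pi_norm g k
          rw [Real.norm_eq_abs] at this
          exact mul_le_mul ((mul_le_of_le_one_left (abs_nonneg _) (abs_cu_le b hu k)))
            this (abs_nonneg _) (abs_nonneg _)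
      _ = (∑ k, |L i k|) * ‖g‖ := (Finset.sum_mul _ _ _).symm
      _ ≤ _ := by
          refine mul_le_mul_of_nonneg_right ?_ (norm_nonneg _)
          exact Finset.single_le_sum (f := fun i => ∑ k, |L i k|) (fun i _ => by positivity)
            (Finset.mem_univ i)
  nlinarith [norm_nonneg g]

theorem continuous_fld (b : κ → Bool) (L : ι → κ → ℝ) (u : ℝ) : Continuous (fld b L u) := by
  unfold fld; fun_prop

theorem continuous_fld_param (b : κ → Bool) (L : ι → κ → ℝ) (g : κ → ℝ) :
    Continuous fun u => fld b L u g := by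
  refine continuous_pi fun i => continuous_finsetSum _ fun k _ => ?_
  refine (Continuous.mul ?_ continuous_const).mul continuous_const
  unfold cu
  split_ifs
  · exact Real.continuous_sqrt
  · exact Real.continuous_sqrt.comp (continuous_const.sub continuous_id)

theorem bound_comp_fld (b : κ → Bool) (L : ι → κ → ℝ) {F : (ι → ℝ) → ℝ} (hb : PolyBd F) :
    ∃ (C : ℝ) (p : ℕ), ∀ u ∈ Icc (0 : ℝ) 1, ∀ g, |F (fld b L u g)| ≤ C * (1 + ‖g‖) ^ p := by
  obtain ⟨C, p, hC, h⟩ := hb.nonneg_const
  obtain ⟨K, -, hK⟩ := norm_fld_le b L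
  refine ⟨C * K ^ p, p, fun u hu g => (h _).trans ?_⟩
  rw [mul_assoc, ← mul_pow]
  exact mul_le_mul_of_nonneg_left (pow_le_pow_left₀ (by positivity) (hK u hu g) p) hC

theorem polyBd_comp_fld (b : κ → Bool) (L : ι → κ → ℝ) {F : (ι → ℝ) → ℝ} (hb : PolyBd F)
    {u : ℝ} (hu : u ∈ Icc (0 : ℝ) 1) : PolyBd fun g => F (fld b L u g) := by
  obtain ⟨C, p, h⟩ := bound_comp_fld b L hb
  exact ⟨C, p, h u hu⟩

theorem polyBd_sum {α : Type*} (s : Finset α) {f : α → (κ → ℝ) → ℝ}
    (hf : ∀ a ∈ s, PolyBd (f a)) : PolyBd fun g => ∑ a ∈ s, f a g := by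
  induction s using Finset.cons_induction with
  | empty => simpa using PolyBd.const (ι := κ) 0
  | cons a s ha ih =>
    simp only [Finset.sum_cons]
    exact (hf a (Finset.mem_cons_self _ _)).add
      (ih fun x hx => hf x (Finset.mem_cons.2 (Or.inr hx)))

theorem polyBd_coord (k : κ) : PolyBd fun g : κ → ℝ => g k :=
  ⟨1, 1, fun g => by
    have := norm_le_pi_norm g k
    rw [Real.norm_eq_abs] at this
    linarith⟩

/-- The interpolated expectation. -/
noncomputable def heat (b : κ → Bool) (L : ι → κ → ℝ) (F : (ι → ℝ) → ℝ) (u : ℝ) : ℝ :=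
  ∫ g, F (fld b L u g) ∂gauss κ

theorem continuousOn_heat (b : κ → Bool) (L : ι → κ → ℝ) {F : (ι → ℝ) → ℝ} (hF : Continuous F)
    (hb : PolyBd F) : ContinuousOn (heat b L F) (Icc 0 1) := by
  obtain ⟨C, p, h⟩ := bound_comp_fld b L hb
  exact continuousOn_of_dominated
    (fun u _ => (hF.comp (continuous_fld b L u)).aestronglyMeasurable)
    (fun u hu => .of_forall fun g => by rw [Real.norm_eq_abs]; exact h u hu g)
    ((P146.integrable_one_add_norm_pow p).const_mul C)
    (.of_forall fun g => (hF.comp (continuous_fld_param b L g)).continuousOn)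

/-- The difference of the two covariance matrices. -/
noncomputable def covDiff (b : κ → Bool) (L : ι → κ → ℝ) (i j : ι) : ℝ :=
  ∑ k, (if b k then 1 else -1) * (L i k * L j k)

/-- The heat equation along the interpolation. -/
theorem hasDerivAt_heat (b : κ → Bool) (L : ι → κ → ℝ) {F : (ι → ℝ) → ℝ}
    {F1 : ι → (ι → ℝ) → ℝ} {F2 : ι → ι → (ι → ℝ) → ℝ}
    (h1 : HD F F1) (h2 : ∀ i, HD (F1 i) (F2 i))
    (c0 : Continuous F) (c1 : ∀ i, Continuous (F1 i)) (c2 : ∀ i j, Continuous (F2 i j))
    (b0 : PolyBd F) (b1 : ∀ i, PolyBd (F1 i)) (b2 : ∀ i j, PolyBd (F2 i j))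
    {u : ℝ} (hu : u ∈ Ioo (0 : ℝ) 1) :
    HasDerivAt (heat b L F) (heat b L (fun x => (∑ i, ∑ j, covDiff b L i j * F2 i j x) / 2) u) u := by
  classical
  set δ := min u (1 - u) / 2 with hδ
  have hδ0 : 0 < δ := by
    have := lt_min hu.1 (by linarith [hu.2] : 0 < 1 - u)
    positivity
  have hball : ∀ x ∈ Metric.ball u δ, x ∈ Ioo (0 : ℝ) 1 ∧ δ ≤ x ∧ δ ≤ 1 - x := by
    intro x hx
    rw [Real.ball_eq_Ioo] at hx
    have := min_le_left u (1 - u)
    have := min_le_right u (1 - u)
    have := hx.1; have := hx.2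
    refine ⟨⟨?_, ?_⟩, ?_, ?_⟩ <;> linarith
  set dc : ℝ → κ → ℝ := fun x k => if b k then 1 / (2 * √x) else -(1 / (2 * √(1 - x))) with hdc
  have hdd : ∀ x ∈ Ioo (0 : ℝ) 1, ∀ g i, HasDerivAt (fun v => fld b L v g i)
      (∑ k, dc x k * L i k * g k) x := by
    intro x hx g i
    refine HasDerivAt.fun_sum fun k _ => ((HasDerivAt.mul_const ?_ (L i k)).mul_const (g k))
    simp only [cu, hdc]
    split_ifs
    · exact Real.hasDerivAt_sqrt hx.1.ne'
    · refine (((hasDerivAt_id x).const_sub 1).sqrt (by simp; linarith [hx.2])).congr_deriv ?_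
      simp; ring
  set K := ∑ i, ∑ k, |L i k| / (2 * √δ) with hK
  choose C p hC using fun i => bound_comp_fld b L (b1 i)
  have hFu := integrable_cont_polyBd (c0.comp (continuous_fld b L u))
    (polyBd_comp_fld b L b0 (Ioo_subset_Icc_self hu))
  have hder := hasDerivAt_integral_of_dominated_loc_of_deriv_le (μ := gauss κ)
    (F := fun x g => F (fld b L x g))
    (F' := fun x g => ∑ i, F1 i (fld b L x g) * ∑ k, dc x k * L i k * g k)
    (bound := fun g => ∑ i, |C i| * (1 + ‖g‖) ^ p i * (K * (1 + ‖g‖)))
    (Metric.ball_mem_nhds u hδ0)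
    (Eventually.of_forall fun x => (c0.comp (continuous_fld b L x)).aestronglyMeasurable) hFu
    (Continuous.aestronglyMeasurable (continuous_finsetSum _ fun i _ =>
      ((c1 i).comp (continuous_fld b L u)).mul (by fun_prop)))
    (.of_forall fun g x hx => ?_) ?_
    (.of_forall fun g x hx => h1 _ _ x (hdd x (hball x hx).1 g))
  · refine hder.2.congr_deriv ?_
    have hint : ∀ i k, Integrable (fun g => g k * F1 i (fld b L u g)) (gauss κ) := fun i k =>
      integrable_cont_polyBd ((continuous_apply k).mul ((c1 i).comp (continuous_fld b L u)))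
        ((polyBd_coord k).mul (polyBd_comp_fld b L (b1 i) (Ioo_subset_Icc_self hu)))
    have hint2 : ∀ i j, Integrable (fun g => F2 i j (fld b L u g)) (gauss κ) := fun i j =>
      integrable_cont_polyBd ((c2 i j).comp (continuous_fld b L u))
        (polyBd_comp_fld b L (b2 i j) (Ioo_subset_Icc_self hu))
    have hibp : ∀ i k, ∫ g, g k * F1 i (fld b L u g) ∂gauss κ =
        ∑ j, cu b u k * L j k * ∫ g, F2 i j (fld b L u g) ∂gauss κ := by
      intro i k
      rw [ibp_coord k (f := fun g => F1 i (fld b L u g))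
        (f' := fun g => ∑ j, cu b u k * L j k * F2 i j (fld b L u g))
        ((c1 i).comp (continuous_fld b L u))
        (continuous_finsetSum _ fun j _ =>
          continuous_const.mul ((c2 i j).comp (continuous_fld b L u)))
        (polyBd_comp_fld b L (b1 i) (Ioo_subset_Icc_self hu))
        (polyBd_sum _ fun j _ => (PolyBd.const _).mul
          (polyBd_comp_fld b L (b2 i j) (Ioo_subset_Icc_self hu)))]
      · rw [integral_finsetSum _ fun j _ => (hint2 i j).const_mul _]
        simp only [integral_const_mul]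
      · intro z t
        have hc : ∀ j, HasDerivAt (fun x => fld b L u (Function.update z k x) j)
            (cu b u k * L j k) t := by
          intro j
          have hz : ∀ l, HasDerivAt (fun x => Function.update z k x l)
              (if l = k then 1 else 0) t := by
            intro l
            by_cases h : l = k
            · subst h; simp only [Function.update_self, if_pos]; exact hasDerivAt_id t
            · simp only [Function.update_of_ne h, if_neg h]; exact hasDerivAt_const t _
          refine (HasDerivAt.fun_sum fun l _ => (hz l).const_mul (cu b u l * L j l)).congr_deriv ?_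
          simp
        refine (h2 i _ _ t hc).congr_deriv ?_
        exact Finset.sum_congr rfl fun j _ => mul_comm _ _
    unfold heat
    rw [integral_div, integral_finsetSum _ fun i _ =>
      integrable_finsetSum _ fun j _ => (hint2 i j).const_mul _]
    simp only [fun i => integral_finsetSum (μ := gauss κ) Finset.univ
      (f := fun j g => covDiff b L i j * F2 i j (fld b L u g))
      fun j _ => (hint2 i j).const_mul _, integral_const_mul]
    have hexp : (fun g => ∑ i, F1 i (fld b L u g) * ∑ k, dc u k * L i k * g k) =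
        fun g => ∑ i, ∑ k, dc u k * L i k * (g k * F1 i (fld b L u g)) := by
      funext g
      refine Finset.sum_congr rfl fun i _ => ?_
      rw [Finset.mul_sum]
      exact Finset.sum_congr rfl fun k _ => by ring
    rw [hexp, integral_finsetSum _ fun i _ =>
      integrable_finsetSum _ fun k _ => (hint i k).const_mul _, Finset.sum_div]
    refine Finset.sum_congr rfl fun i _ => ?_
    rw [integral_finsetSum _ fun k _ => (hint i k).const_mul _]
    simp only [integral_const_mul, hibp, Finset.mul_sum, covDiff, Finset.sum_mul, Finset.sum_div]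
    rw [Finset.sum_comm]
    refine Finset.sum_congr rfl fun j _ => Finset.sum_congr rfl fun k _ => ?_
    have hcd : dc u k * cu b u k = (if b k then (1 : ℝ) else -1) / 2 := by
      simp only [hdc, cu]
      have := Real.sqrt_pos.2 hu.1
      have := Real.sqrt_pos.2 (by linarith [hu.2] : (0 : ℝ) < 1 - u)
      split_ifs <;> field_simp
    linear_combination (L i k * L j k * ∫ g, F2 i j (fld b L u g) ∂gauss κ) * hcd
  · obtain ⟨hxI, hx1, hx2⟩ := hball x hx
    rw [Real.norm_eq_abs]
    refine (Finset.abs_sum_le_sum_abs _ _).trans (Finset.sum_le_sum fun i _ => ?_)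
    rw [abs_mul]
    have hb1 : |F1 i (fld b L x g)| ≤ |C i| * (1 + ‖g‖) ^ p i :=
      (hC i x (Ioo_subset_Icc_self hxI) g).trans
        (mul_le_mul_of_nonneg_right (le_abs_self _) (by positivity))
    refine mul_le_mul hb1 ?_ (abs_nonneg _) (by positivity)
    refine (Finset.abs_sum_le_sum_abs _ _).trans ?_
    calc ∑ k, |dc x k * L i k * g k| ≤ ∑ k, |L i k| / (2 * √δ) * (1 + ‖g‖) := by
          refine Finset.sum_le_sum fun k _ => ?_
          rw [abs_mul, abs_mul]
          have hd : |dc x k| ≤ 1 / (2 * √δ) := by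
            simp only [hdc]
            split_ifs
            · rw [abs_of_nonneg (by positivity)]
              gcongr
            · rw [abs_neg, abs_of_nonneg (by positivity)]
              gcongr
          have hg := norm_le_pi_norm g k
          rw [Real.norm_eq_abs] at hg
          calc |dc x k| * |L i k| * |g k| ≤ 1 / (2 * √δ) * |L i k| * (1 + ‖g‖) := by
                gcongr
                linarith
            _ = _ := by ring
      _ = (∑ k, |L i k| / (2 * √δ)) * (1 + ‖g‖) := (Finset.sum_mul _ _ _).symm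
      _ ≤ K * (1 + ‖g‖) := by
          refine mul_le_mul_of_nonneg_right ?_ (by positivity)
          exact Finset.single_le_sum (f := fun i => ∑ k, |L i k| / (2 * √δ))
            (fun i _ => by positivity) (Finset.mem_univ i)
  · refine integrable_finsetSum _ fun i _ => ?_
    have : Integrable (fun g : κ → ℝ => |C i| * K * (1 + ‖g‖) ^ (p i + 1)) (gauss κ) :=
      (P146.integrable_one_add_norm_pow _).const_mul _
    refine this.congr (.of_forall fun g => ?_)
    simp only [pow_succ]; ring

end Vale.Agent.P166.Wishart
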