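import Vale.Agent.P166.Wishart.Chain

/-! Factorisation over two blocks of sites, reindexing, and superadditivity. -/

open MeasureTheory ProbabilityTheory Filter Topology Set

namespace Vale.Agent.P166.Wishart

open Vale.Agent.P146 (PolyBd gauss)

/-- The normalised sign row of a configuration. -/
noncomputable def row (κ : Type) [Fintype κ] (s : κ → Bool) (k : κ) : ℝ :=
  (if s k then 1 else -1) / √(Fintype.card κ)

/-- Uniform weights. -/
noncomputable def unif (κ : Type) [Fintype κ] (_ : κ → Bool) : ℝ := ((2 : ℝ) ^ Fintype.card κ)⁻¹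

/-- Expected log-partition function with `m` full constraints on the sites `κ`. -/
noncomputable def G (θ : ℝ) (κ : Type) [Fintype κ] [DecidableEq κ] (m : ℕ) : ℝ :=
  val θ (List.replicate m (row κ)) (unif κ)

variable {θ : ℝ}

theorem row_unit (κ : Type) [Fintype κ] [Nonempty κ] (s : κ → Bool) :
    ∑ k, row κ s k ^ 2 = 1 := by
  have hpos : (0 : ℝ) < Fintype.card κ := by exact_mod_cast Fintype.card_pos
  have e : ∀ k, row κ s k ^ 2 = 1 / (Fintype.card κ : ℝ) := fun k => by
    rw [row, div_pow, Real.sq_sqrt hpos.le]
    split_ifs <;> norm_num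
  simp only [e, Finset.sum_const, Finset.card_univ, nsmul_eq_mul]
  field_simp

theorem unif_pos (κ : Type) [Fintype κ] (s : κ → Bool) : 0 < unif κ s := by
  unfold unif; positivity

theorem unif_sum (κ : Type) [Fintype κ] [DecidableEq κ] : ∑ s, unif κ s = 1 := by
  simp [unif]

theorem replicate_unit (κ : Type) [Fintype κ] [Nonempty κ] (m : ℕ) :
    UnitRows (List.replicate m (row κ)) := fun L hL s => by
  rw [List.eq_of_mem_replicate hL]; exact row_unit κ s

theorem G_zero (θ : ℝ) (κ : Type) [Fintype κ] [DecidableEq κ] : G θ κ 0 = 0 := by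
  simp [G, val, unif_sum]

theorem G_succ_diff (hθ : |θ| ≤ 1 / 64) (κ : Type) [Fintype κ] [DecidableEq κ] [Nonempty κ]
    (m : ℕ) : |G θ κ (m + 1) - G θ κ m| ≤ 128 * |θ| :=
  val_cons_diff _ (replicate_unit κ m) _ (row_unit κ) hθ (unif_pos κ)

theorem G_lipschitz (hθ : |θ| ≤ 1 / 64) (κ : Type) [Fintype κ] [DecidableEq κ] [Nonempty κ]
    (m m' : ℕ) : |G θ κ m - G θ κ m'| ≤ 128 * |θ| * |(m : ℝ) - m'| := by
  have key : ∀ a d : ℕ, |G θ κ (a + d) - G θ κ a| ≤ 128 * |θ| * d := by
    intro a d
    induction d with
    | zero => simp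
    | succ d ih =>
      push_cast
      refine (abs_sub_le _ (G θ κ (a + d)) _).trans ?_
      have := G_succ_diff (θ := θ) hθ κ (a + d)
      rw [← Nat.add_assoc]
      linarith
  rcases le_total m' m with h | h
  · obtain ⟨d, rfl⟩ := Nat.exists_eq_add_of_le h
    refine (key m' d).trans (le_of_eq ?_)
    push_cast
    rw [add_sub_cancel_left, abs_of_nonneg (Nat.cast_nonneg d : (0 : ℝ) ≤ d)]
  · obtain ⟨d, rfl⟩ := Nat.exists_eq_add_of_le h
    rw [abs_sub_comm]
    refine (key m d).trans (le_of_eq ?_)
    push_cast
    rw [sub_add_cancel_left, abs_neg, abs_of_nonneg (Nat.cast_nonneg d : (0 : ℝ) ≤ d)]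

section Reindex

variable {κ κ' : Type} [Fintype κ] [DecidableEq κ] [Fintype κ'] [DecidableEq κ'] [Nonempty κ]

theorem val_reindex (e : κ ≃ κ') : ∀ (cs : List ((κ → Bool) → κ → ℝ)) (p : (κ → Bool) → ℝ),
    val θ (cs.map fun L => fun (s : κ' → Bool) k => L (fun a => s (e a)) (e.symm k))
      (fun s => p fun a => s (e a)) = val θ cs p := by
  intro cs
  induction cs with
  | nil =>
    intro p
    simp only [List.map_nil, val]
    congr 1
    exact Equiv.sum_comp (e.arrowCongr (Equiv.refl Bool)).symm p
  | cons L cs ih =>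
    intro p
    simp only [List.map_cons, val]
    have hmp := measurePreserving_piCongrLeft (fun _ : κ' => gaussianReal 0 1) e
    unfold gauss
    rw [← hmp.integral_comp (MeasurableEquiv.measurableEmbedding _)]
    refine integral_congr_ae (.of_forall fun g => ?_)
    dsimp only
    rw [← ih (tilt θ L p g)]
    refine congrArg (val θ _) (funext fun s => ?_)
    simp only [tilt]
    congr 2
    rw [← Equiv.sum_comp e]
    refine Finset.sum_congr rfl fun a _ => ?_
    rw [Equiv.symm_apply_apply, MeasurableEquiv.piCongrLeft_apply_apply]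

theorem G_reindex (e : κ ≃ κ') (m : ℕ) : G θ κ' m = G θ κ m := by
  have hc : Fintype.card κ' = Fintype.card κ := (Fintype.card_congr e).symm
  have h := val_reindex (θ := θ) e (List.replicate m (row κ)) (unif κ)
  rw [List.map_replicate] at h
  unfold G
  rw [← h]
  congr 1
  · congr 1
    funext s k
    simp only [row, hc, Equiv.apply_symm_apply]
  · funext s
    simp only [unif, hc]

end Reindex

section Blocks

variable {α β : Type} [Fintype α] [DecidableEq α] [Nonempty α] [Fintype β] [DecidableEq β]
  [Nonempty β]

/-- Rows of both blocks, side by side. -/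
noncomputable def rowPair (α β : Type) [Fintype α] [Fintype β] (s : α ⊕ β → Bool) (k : α ⊕ β) : ℝ :=
  Sum.elim (fun a => row α (fun x => s (Sum.inl x)) a) (fun b => row β (fun x => s (Sum.inr x)) b) k

/-- The block indicator. -/
def side (α β : Type) (k : α ⊕ β) : Bool := k.isLeft

theorem rowPair_hyp (s : α ⊕ β → Bool) (c : Bool) :
    ∑ k, (if side α β k = c then rowPair α β s k ^ 2 else 0) = 1 := by
  rw [Fintype.sum_sum_type]
  cases c <;> simp [side, rowPair, row_unit]

theorem rowPair_one (s : α ⊕ β → Bool) (g : α ⊕ β → ℝ) :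
    ∑ k, mixRow (side α β) (rowPair α β) 1 s k * g k =
      ∑ a, row α (fun x => s (Sum.inl x)) a * g (Sum.inl a) := by
  rw [Fintype.sum_sum_type]
  simp [mixRow, cu, side, rowPair]

theorem rowPair_zero (s : α ⊕ β → Bool) (g : α ⊕ β → ℝ) :
    ∑ k, mixRow (side α β) (rowPair α β) 0 s k * g k =
      ∑ b, row β (fun x => s (Sum.inr x)) b * g (Sum.inr b) := by
  rw [Fintype.sum_sum_type]
  simp [mixRow, cu, side, rowPair]

theorem val_factor_base (pa : (α → Bool) → ℝ) (pb : (β → Bool) → ℝ) (ha : ∀ s, 0 < pa s)
    (hb : ∀ s, 0 < pb s) :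
    Real.log (∑ s : α ⊕ β → Bool, pa (fun a => s (Sum.inl a)) * pb (fun b => s (Sum.inr b))) =
      Real.log (∑ s, pa s) + Real.log (∑ s, pb s) := by
  rw [← Real.log_mul (Finset.sum_pos (fun s _ => ha s) Finset.univ_nonempty).ne'
    (Finset.sum_pos (fun s _ => hb s) Finset.univ_nonempty).ne', Finset.sum_mul_sum,
    ← Fintype.sum_prod_type' (fun x y => pa x * pb y)]
  congr 1
  exact Equiv.sum_comp (Equiv.sumArrowEquivProdArrow α β Bool)
    (fun q => pa q.1 * pb q.2)

theorem inl_preserving :
    MeasurePreserving (fun g : α ⊕ β → ℝ => fun a => g (Sum.inl a)) (gauss (α ⊕ β)) (gauss α) :=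
  (measurePreserving_fst (μ := gauss α) (ν := gauss β)).comp
    (measurePreserving_sumPiEquivProdPi fun _ : α ⊕ β => gaussianReal 0 1)

theorem inr_preserving :
    MeasurePreserving (fun g : α ⊕ β → ℝ => fun b => g (Sum.inr b)) (gauss (α ⊕ β)) (gauss β) :=
  (measurePreserving_snd (μ := gauss α) (ν := gauss β)).comp
    (measurePreserving_sumPiEquivProdPi fun _ : α ⊕ β => gaussianReal 0 1)

theorem val_factor : ∀ (B C : ℕ) (pa : (α → Bool) → ℝ) (pb : (β → Bool) → ℝ),
    (∀ s, 0 < pa s) → (∀ s, 0 < pb s) →
    val θ (List.replicate B (mixRow (side α β) (rowPair α β) 1) ++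
        List.replicate C (mixRow (side α β) (rowPair α β) 0))
      (fun s => pa (fun a => s (Sum.inl a)) * pb (fun b => s (Sum.inr b))) =
    val θ (List.replicate B (row α)) pa + val θ (List.replicate C (row β)) pb := by
  intro B
  induction B with
  | zero =>
    intro C
    induction C with
    | zero => intro pa pb ha hb; exact val_factor_base pa pb ha hb
    | succ C ih =>
      intro pa pb ha hb
      simp only [List.replicate_zero, List.nil_append] at ih ⊢
      rw [List.replicate_succ, List.replicate_succ]
      simp only [val]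
      have e : ∀ g : α ⊕ β → ℝ, val θ (List.replicate C (mixRow (side α β) (rowPair α β) 0))
          (tilt θ (mixRow (side α β) (rowPair α β) 0)
            (fun s => pa (fun a => s (Sum.inl a)) * pb (fun b => s (Sum.inr b))) g) =
          Real.log (∑ s, pa s) + val θ (List.replicate C (row β))
            (tilt θ (row β) pb (fun b => g (Sum.inr b))) := by
        intro g
        have h := ih pa (tilt θ (row β) pb (fun b => g (Sum.inr b))) ha (tilt_pos _ hb _)
        simp only [val] at h
        rw [← h]
        refine congrArg (val θ _) (funext fun s => ?_)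
        simp only [tilt, rowPair_zero]
        ring
      simp only [e]
      have hi := integrable_val_tilt (θ := θ) (List.replicate C (row β)) (replicate_unit β C)
        (row β) (row_unit β) hb
      have hi' : Integrable (fun g : α ⊕ β → ℝ => val θ (List.replicate C (row β))
          (tilt θ (row β) pb fun b => g (Sum.inr b))) (gauss (α ⊕ β)) :=
        inr_preserving.integrable_comp_of_integrable hi
      rw [integral_add (integrable_const _) hi', integral_const, probReal_univ, one_smul]
      congr 1
      have h2 := integral_map (μ := gauss (α ⊕ β)) (inr_preserving (α := α) (β := β)).measurable.aemeasurable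
        (f := fun g => val θ (List.replicate C (row β)) (tilt θ (row β) pb g))
        (measurable_val_tilt _ _ _).aestronglyMeasurable
      rw [(inr_preserving (α := α) (β := β)).map_eq] at h2
      exact h2.symm
  | succ B ih =>
    intro C pa pb ha hb
    rw [List.replicate_succ, List.replicate_succ, List.cons_append]
    simp only [val]
    have e : ∀ g : α ⊕ β → ℝ, val θ (List.replicate B (mixRow (side α β) (rowPair α β) 1) ++
          List.replicate C (mixRow (side α β) (rowPair α β) 0))
        (tilt θ (mixRow (side α β) (rowPair α β) 1)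
          (fun s => pa (fun a => s (Sum.inl a)) * pb (fun b => s (Sum.inr b))) g) =
        val θ (List.replicate B (row α)) (tilt θ (row α) pa (fun a => g (Sum.inl a))) +
          val θ (List.replicate C (row β)) pb := by
      intro g
      rw [← ih C (tilt θ (row α) pa (fun a => g (Sum.inl a))) pb (tilt_pos _ ha _) hb]
      refine congrArg (val θ _) (funext fun s => ?_)
      simp only [tilt, rowPair_one]
      ring
    simp only [e]
    have hi := integrable_val_tilt (θ := θ) (List.replicate B (row α)) (replicate_unit α B)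
      (row α) (row_unit α) ha
    have hi' : Integrable (fun g : α ⊕ β → ℝ => val θ (List.replicate B (row α))
        (tilt θ (row α) pa fun a => g (Sum.inl a))) (gauss (α ⊕ β)) :=
      inl_preserving.integrable_comp_of_integrable hi
    rw [integral_add hi' (integrable_const _), integral_const, probReal_univ, one_smul]
    congr 1
    have h2 := integral_map (μ := gauss (α ⊕ β)) (inl_preserving (α := α) (β := β)).measurable.aemeasurable
      (f := fun g => val θ (List.replicate B (row α)) (tilt θ (row α) pa g))
      (measurable_val_tilt _ _ _).aestronglyMeasurable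
    rw [(inl_preserving (α := α) (β := β)).map_eq] at h2
    exact h2.symm

theorem G_super_sum (hθ : |θ| ≤ 1 / 5000) (M : ℕ) :
    bin ((Fintype.card α : ℝ) / (Fintype.card α + Fintype.card β : ℕ)) M
      (fun B => G θ α B + G θ β (M - B)) ≤ G θ (α ⊕ β) M := by
  set u := (Fintype.card α : ℝ) / (Fintype.card α + Fintype.card β : ℕ) with hu
  have ha : (0 : ℝ) < Fintype.card α := by exact_mod_cast Fintype.card_pos
  have hb : (0 : ℝ) < Fintype.card β := by exact_mod_cast Fintype.card_pos
  have hu' : u ∈ Icc (0 : ℝ) 1 := by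
    rw [hu, Nat.cast_add]
    exact ⟨by positivity, (div_le_one (by positivity)).2 (by linarith)⟩
  have hrow : mixRow (side α β) (rowPair α β) u = row (α ⊕ β) := by
    funext s k
    have h1u : 1 - u = (Fintype.card β : ℝ) / (Fintype.card α + Fintype.card β : ℕ) := by
      rw [hu]; push_cast; field_simp; ring
    have hn : (0 : ℝ) ≤ ((Fintype.card α + Fintype.card β : ℕ) : ℝ) := Nat.cast_nonneg _
    simp only [row, Fintype.card_sum]
    cases k with
    | inl a =>
      simp only [mixRow, cu, side, rowPair, Sum.isLeft_inl, if_true, Sum.elim_inl, row, hu,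
        Real.sqrt_div ha.le]
      have := Real.sqrt_pos.2 ha
      field_simp
    | inr a =>
      simp only [mixRow, cu, side, rowPair, Sum.isLeft_inr, Bool.false_eq_true, if_false,
        Sum.elim_inr, row, h1u, Real.sqrt_div hb.le]
      have := Real.sqrt_pos.2 hb
      field_simp
  have hp : (fun s : α ⊕ β → Bool =>
      unif α (fun a => s (Sum.inl a)) * unif β (fun b => s (Sum.inr b))) = unif (α ⊕ β) := by
    funext s
    simp [unif, Fintype.card_sum, pow_add, mul_comm]
  have h := val_split (θ := θ) (b := side α β) (L := rowPair α β) rowPair_hyp hθ hu' M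
    (unif (α ⊕ β)) (unif_pos _)
  rw [hrow] at h
  refine le_trans (le_of_eq ?_) h
  congr 1
  funext B
  rw [← hp, val_factor B (M - B) _ _ (unif_pos α) (unif_pos β)]
  rfl

end Blocks

/-- Expected log-partition function with `m` constraints on `n` sites. -/
noncomputable def Gn (θ : ℝ) (n m : ℕ) : ℝ := G θ (Fin n) m

theorem Gn_super (hθ : |θ| ≤ 1 / 5000) {a b : ℕ} (ha : 0 < a) (hb : 0 < b) (M : ℕ) :
    bin ((a : ℝ) / (a + b : ℕ)) M (fun B => Gn θ a B + Gn θ b (M - B)) ≤ Gn θ (a + b) M := by
  have : Nonempty (Fin a) := ⟨⟨0, ha⟩⟩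
  have : Nonempty (Fin b) := ⟨⟨0, hb⟩⟩
  have h := G_super_sum (θ := θ) (α := Fin a) (β := Fin b) hθ M
  rw [Fintype.card_fin, Fintype.card_fin] at h
  unfold Gn
  rw [G_reindex finSumFinEquiv M]
  exact h

end Vale.Agent.P166.Wishart
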